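import Vale.Agent.P122.AN275.Fin
import Vale.Agent.P122.H610.Flags

/-! # P076 / H429 : the multiscale amplitudes at ALL levels (helper429)

`stAMPx` = `P122.AN.StAMP` with the explicit amplitudes `F.a = aR K M n g` (square root of `am2` at each level) and the pointwise
bound of the piece `pie i y` on the unit cube of `x` by the amplitude of the node of the path of `x`, `y`, at each level. -/

set_option autoImplicit false

open MeasureTheory Complex Set Vale.Agent.P122.C2 Vale.Agent.P122.AN Vale.Agent.P122.AN275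
open scoped ENNReal NNReal FourierTransform

namespace Vale.Agent.P076.H429

open Vale.Agent.P122.H610 (pth pth_succ)

/-- bound of the gauge of a unit cube with respect to its nodes of level `j` -/
noncomputable def gB : ℕ → ℝ
  | 0 => 3
  | j + 1 => 5 * (1 + gB j)

lemma gB_nonneg : ∀ j, 0 ≤ gB j
  | 0 => by unfold gB; norm_num
  | j + 1 => by unfold gB; have := gB_nonneg j; positivity

lemma cap_par {n i : ℕ} {y : Z2} (h : Cap n (i + 1) y) : Cap n i (par n y) := by
  have hp : (0:ℤ) < 2 ^ n := by positivity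
  intro k
  obtain ⟨h1, h2⟩ := h k
  refine ⟨Int.ediv_nonneg h1 hp.le, Int.ediv_lt_of_lt_mul hp ?_⟩
  rw [← pow_add]
  have e : i * n + n = (i + 1) * n := by ring
  rw [e]; exact h2

lemma mem_kids_par (n : ℕ) (y : Z2) : y ∈ kids n (par n y) := by
  have hp : (0:ℤ) < 2 ^ n := by positivity
  unfold kids par
  rw [Fintype.mem_piFinset]
  intro k
  rw [Finset.mem_Ico]
  have h1 := Int.mul_ediv_add_emod (y k) (2 ^ n)
  have h2 := Int.emod_nonneg (y k) hp.ne'
  have h3 := Int.emod_lt_of_pos (y k) hp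
  constructor
  · linarith
  · linarith

lemma par_zero_of_cap {n : ℕ} {y : Z2} (h : Cap n 0 y) : y = 0 := by
  funext k
  obtain ⟨h1, h2⟩ := h k
  simp only [Nat.zero_mul, pow_zero] at h2
  show y k = 0
  omega

lemma pth_τ {n : ℕ} {x : Nd} (hx : x.τ = 0) : ∀ (j : ℕ) {y : Z2}, Cap n j y → (pth (slp n) n j x y).τ = y
  | 0, y, h => by rw [par_zero_of_cap h]; exact hx
  | _ + 1, _, _ => rfl

/-- the nodes of the path are in the region, and the unit cube is in `O(1)` times the tube -/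
theorem pth_spec {K n : ℕ} {x : Nd} (hx : x.τ = 0) (hR : Rg K n 0 x) {z : E3} (hz : z ∈ cube x) :
    ∀ (j : ℕ), j ≤ K → ∀ {y : Z2}, Cap n j y → Rg K n j (pth (slp n) n j x y) ∧
      gau 0 (2 ^ (j * n)) (2 ^ (j * n)) (2 ^ (2 * j * n)) (slp n j y) (z - bp n j (pth (slp n) n j x y)) ≤ gB j := by
  intro j
  induction j with
  | zero =>
    intro _ y hy
    have h0 := par_zero_of_cap hy
    subst h0
    refine ⟨hR, ?_⟩
    have := gau_cube (n := n) hx hz
    rw [hx] at this
    exact this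
  | succ j ih =>
    intro hj y hy
    have hy' := cap_par hy
    obtain ⟨h1, h2⟩ := ih (by omega) hy'
    have hτ := pth_τ (n := n) hx j hy'
    have hk : y ∈ kids n (pth (slp n) n j x (par n y)).τ := by rw [hτ]; exact mem_kids_par n y
    constructor
    · exact rg_ch (by omega) h1 (by rw [hτ]; exact hy') hk
    · have h3 := child_gau n j ((pth (slp n) n j x (par n y)).sg n) y hk 0 (2 ^ (j * n)) (2 ^ (j * n)) (by positivity)
        (by positivity) (pow_le_pow_right₀ (by norm_num) (by nlinarith)) (pow_le_pow_right₀ (by norm_num) (by nlinarith))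
        (bp n j (pth (slp n) n j x (par n y))) (fun k => bp_near n j _ k) (bp_two n j _) z
      have e : ((pth (slp n) n j x (par n y)).sg n).τ = par n y := hτ
      rw [e] at h3
      refine h3.trans ?_
      show 5 * (1 + _) ≤ 5 * (1 + gB j)
      linarith

/-- **amplitudes of all levels** -/
theorem stAMPx (K M : ℕ) (C0 : ℝ) (hM : 4 ≤ M) (hC0 : 1 ≤ C0) : ∃ C : ℝ, 1 ≤ C ∧
    ∀ (n : ℕ) (Q : Set (Fin 2 → ℝ)) (h : (Fin 2 → ℝ) → ℝ) (v : (Fin 2 → ℝ) → Fin 2 → ℝ) (g : Z2 → E3 → ℂ),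
      Srf C0 Q h v → Dat C0 K n Q h v g → ∃ F : Amp C n K, F.s = slp n ∧ F.a = aR K M n g ∧ F.A = AR K M n g ∧
      (∀ (x : Nd) (z : E3), x.τ = 0 → Rg K n 0 x → z ∈ cube x → ∀ j ≤ K, ∀ y : Z2, Cap n j y →
        ‖pie K n g j y z‖ ≤ C * F.a j (pth F.s n j x y)) ∧
      (∀ S : Nd, ENNReal.ofReal (F.a K S ^ 2) ≤ am2 M n K S (pie K n g K S.τ)) := by
  obtain ⟨CL, hCL, hL⟩ := lemL K M C0 hC0 Vale.Agent.P122.R301.stREP Vale.Agent.P122.W840.stWI
  obtain ⟨C1, hC1, h1⟩ := lemB1 K M C0 hC0 Vale.Agent.P122.R301.stREP Vale.Agent.P122.H84.stORT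
    Vale.Agent.P122.W840.stWS Vale.Agent.P122.W840.stWI
  obtain ⟨C2, hC2, h2⟩ := lemB2 K M C0 hC0 Vale.Agent.P122.R301.stREP Vale.Agent.P122.H84.stORT
    Vale.Agent.P122.W840.stWS Vale.Agent.P122.W840.stWI
  choose Cp hCp hPT using fun i : ℕ => pt_of_rep Vale.Agent.P122.R301.stREP K (ex K M i) hC0
  set C3 : ℝ := ∑ i ∈ Finset.range (K + 1), (Cp i * (1 + gB i) ^ (ex K M i) + 1) with hC3
  have hterm : ∀ i, 0 ≤ Cp i * (1 + gB i) ^ (ex K M i) + 1 := by
    intro i
    have := gB_nonneg i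
    have := hCp i
    positivity
  have hC30 : 0 ≤ C3 := Finset.sum_nonneg fun i _ => hterm i
  have hK0 : (0:ℝ) ≤ 3 * K := by positivity
  refine ⟨CL + C1 + C2 + 1 + 3 * K + C3, by linarith, ?_⟩
  intro n Q h v g hS hD
  obtain ⟨F, hFs, hFa, hFA⟩ := exists_amp Vale.Agent.P122.W840.stWI (C := CL + C1 + C2 + 1 + 3 * K + C3) hM hL h1 h2 hCL hC1 hC2
    (by linarith) (by linarith) (by linarith) (by linarith) hS hD
  refine ⟨F, hFs, hFa, hFA, ?_, ?_⟩
  · intro x z hx hR hz j hj y hy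
    rw [hFs, hFa]
    obtain ⟨r1, r2⟩ := pth_spec hx hR hz j hj hy
    have hτ := pth_τ (n := n) hx j hy
    set S := pth (slp n) n j x y with hSd
    have hcap : Cap n j S.τ := by rw [hτ]; exact hy
    have hfin := fin_pie (g := g) (n := n) (K := K) Vale.Agent.P122.W840.stWI hM j j S S.τ
    have hA2 : am2 (ex K M j) n j S (pie K n g j S.τ) = ENNReal.ofReal (aR K M n g j S ^ 2) := by
      rw [aR_sq j S r1 hcap, ENNReal.ofReal_toReal hfin.ne]
    have hA0 : 0 ≤ aR K M n g j S := aR_nonneg _ _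
    have p1 := hPT j n Q h v g hS hD j hj S z
    rw [hA2, hτ] at p1
    have g0 := Vale.Agent.P122.AN.gau_nonneg (θ := 0) (s := slp n j y) (ρ1 := 2 ^ (j * n)) (ρ2 := 2 ^ (j * n)) (ρ3 := 2 ^ (2 * j * n))
      (by positivity) (by positivity) (by positivity) (z - bp n j S)
    have p2 : ‖pie K n g j y z‖ₑ ^ 2 ≤ ENNReal.ofReal (Cp j * (1 + gB j) ^ (ex K M j) * aR K M n g j S ^ 2) := by
      refine p1.trans ?_
      rw [← ENNReal.ofReal_mul' (by positivity)]
      refine ENNReal.ofReal_le_ofReal (mul_le_mul_of_nonneg_right ?_ (by positivity))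
      refine mul_le_mul_of_nonneg_left (pow_le_pow_left₀ (by linarith) (by linarith) _) (hCp j)
    have e : ‖pie K n g j y z‖ₑ ^ 2 = ENNReal.ofReal (‖pie K n g j y z‖ ^ 2) := by
      rw [ENNReal.ofReal_pow (norm_nonneg _), ofReal_norm]
    have hD0 : 0 ≤ Cp j * (1 + gB j) ^ (ex K M j) := by
      have := gB_nonneg j
      have := hCp j
      positivity
    rw [e, ENNReal.ofReal_le_ofReal_iff (by positivity)] at p2
    have p3 : ‖pie K n g j y z‖ ≤ (Cp j * (1 + gB j) ^ (ex K M j) + 1) * aR K M n g j S := by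
      refine (sq_le_sq₀ (norm_nonneg _) (mul_nonneg (by linarith) hA0)).1 (p2.trans ?_)
      nlinarith [sq_nonneg (aR K M n g j S), mul_nonneg hD0 (sq_nonneg (aR K M n g j S)),
        mul_nonneg (mul_nonneg hD0 hD0) (sq_nonneg (aR K M n g j S))]
    refine p3.trans (mul_le_mul_of_nonneg_right ?_ hA0)
    have : Cp j * (1 + gB j) ^ (ex K M j) + 1 ≤ C3 :=
      Finset.single_le_sum (f := fun i => Cp i * (1 + gB i) ^ (ex K M i) + 1) (fun i _ => hterm i)
        (Finset.mem_range.2 (by omega))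
    linarith
  · intro S
    rw [hFa]
    by_cases hR : Rg K n K S ∧ Cap n K S.τ
    · rw [aR_sq K S hR.1 hR.2, ENNReal.ofReal_toReal (fin_pie Vale.Agent.P122.W840.stWI hM K K S S.τ).ne]
      have e : ex K M K = M := by unfold ex; simp
      rw [e]
    · have : aR K M n g K S = 0 := by unfold aR; rw [if_neg hR]
      rw [this]
      simp

end Vale.Agent.P076.H429
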