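import Vale.Agent.P076.NS.Geo
import Vale.Agent.P076.BG.Defs
import Vale.Agent.P076.H803.Reg
import Vale.Agent.P076.NS.FlatDefs

/-! # P076 / H429 : every system of flags has a dense sub-law for which all the tuples of its variables are flat (helper429)

`Nm K` : names of the variables `bl s`, `Y h`, `pj s h`, `N c`, `T c`;  `vr F` : the variables;  `FlatF F` : all tuples are
flat (`Unf`, `Low`, `Cnt` with the entropies as exponents);  `Rp F X` : `X` is equivalent to a tuple;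
`exists_flat` : dense restriction with `FlatF`;  `tgx_of` : `TGH` and `FlatF` give `TGX`. -/

set_option autoImplicit false

open Filter Topology Finset Vale.Agent.P127 Vale.Agent.P127.Stk Vale.Agent.P127.U Vale.Agent.P127.U.Sys
  Vale.Agent.P122.C2 Vale.Agent.P122.E Vale.Agent.P122.H518 Vale.Agent.P122.K931 Vale.Agent.P076.NS Vale.Agent.P076.BG
  Vale.Agent.P076.H803

namespace Vale.Agent.P076.H429

/-- names of the variables -/
abbrev Nm (K : ℕ) : Type := Fin (2 * K + 1) ⊕ Fin (K + 1) ⊕ (Fin (2 * K + 1) × Fin (K + 1)) ⊕ Fin (K + 1) ⊕ Fin (K + 1)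

/-- types of the variables -/
def Ty (K : ℕ) : Nm K → Type
  | .inl _ => ℤ × Z2
  | .inr (.inl _) => Z2
  | .inr (.inr (.inl _)) => Z2
  | .inr (.inr (.inr (.inl _))) => Nd
  | .inr (.inr (.inr (.inr _))) => ℤ

variable {K : ℕ}

/-- the variables -/
noncomputable def vr (F : Flg K) : ∀ j : Nm K, F.S.RV (Ty K j)
  | .inl s => NS.bl F s
  | .inr (.inl h) => F.Y h
  | .inr (.inr (.inl p)) => NS.pj F p.1 p.2
  | .inr (.inr (.inr (.inl c))) => F.N c
  | .inr (.inr (.inr (.inr c))) => F.T c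

theorem tame_vr (F : Flg K) (j : Nm K) : Sys.Tame (vr F j) := by
  have hK := Kpos F
  rcases j with s | h | p | c | c
  · exact tame_bl F _
  · exact tame_Y F (by omega)
  · exact tame_pj F _ (by omega)
  · exact tame_N F hK (by omega)
  · exact tame_T F hK (by omega)

/-- all the tuples are flat -/
def FlatF (F : Flg K) : Prop := ∀ J : Finset (Nm K),
  Unf F.S (tup (vr F) J) (F.S.h (tup (vr F) J)) ∧ Low F.S (tup (vr F) J) (F.S.h (tup (vr F) J)) ∧
    ∀ J' : Finset (Nm K), Cnt F.S (tup (vr F) J) (tup (vr F) J') (F.S.hc (tup (vr F) J) (tup (vr F) J'))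

/-- dense restriction with flat tuples -/
theorem exists_flat (F : Flg K) : ∃ (S' : Sys) (d : Dns S' F.S)
    (h : ∀ i ω, 0 < (S'.P i).w ω → 0 < (F.S.P i).w (d.π i ω)), FlatF (F.res d h) := by
  obtain ⟨S', d, h, -, h1, h2, h3⟩ := exists_reg F.S (vr F) (tame_vr F)
  refine ⟨S', d, h, ?_⟩
  have key : ∀ J : Finset (Nm K), tup (vr (F.res d h)) J = d.pull (tup (vr F) J) := by
    intro J
    funext i ω j
    obtain ⟨j, hj⟩ := j
    rcases j with s | h | p | c | c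
    · rfl
    · rfl
    · rfl
    · rfl
    · rfl
  intro J
  refine ⟨?_, ?_, fun J' => ?_⟩
  · rw [key]; exact h1 J
  · rw [key]; exact h3 J
  · rw [key, key]; exact h2 J J'

/-- `X` is equivalent to a tuple of the variables -/
def Rp (F : Flg K) {α : Type*} (X : F.S.RV α) : Prop :=
  ∃ J : Finset (Nm K), Sys.Fn X (tup (vr F) J) ∧ Sys.Fn (tup (vr F) J) X

variable {F : Flg K}

theorem rp_vr (F : Flg K) (j : Nm K) : Rp F (vr F j) := by
  refine ⟨{j}, fn_tup (vr F) (Finset.mem_singleton_self j), ?_⟩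
  refine Eventually.of_forall fun i ω ω' _ _ e => ?_
  funext j'
  obtain ⟨j', hj'⟩ := j'
  obtain rfl := Finset.mem_singleton.1 hj'
  exact e

theorem rp_bl (F : Flg K) {s : ℕ} (hs : s ≤ 2 * K) : Rp F (NS.bl F s) := rp_vr F (.inl ⟨s, by omega⟩)

theorem rp_Y (F : Flg K) {h : ℕ} (hh : h ≤ K) : Rp F (F.Y h) := rp_vr F (.inr (.inl ⟨h, by omega⟩))

theorem rp_pj (F : Flg K) {s h : ℕ} (hs : s ≤ 2 * K) (hh : h ≤ K) : Rp F (NS.pj F s h) :=
  rp_vr F (.inr (.inr (.inl (⟨s, by omega⟩, ⟨h, by omega⟩))))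

theorem rp_N (F : Flg K) {c : ℕ} (hc : c ≤ K) : Rp F (F.N c) := rp_vr F (.inr (.inr (.inr (.inl ⟨c, by omega⟩))))

theorem rp_x (F : Flg K) : Rp F F.x := rp_N F (Nat.zero_le K)

theorem rp_T (F : Flg K) {c : ℕ} (hc : c ≤ K) : Rp F (F.T c) := rp_vr F (.inr (.inr (.inr (.inr ⟨c, by omega⟩))))

theorem rp_one (F : Flg K) : Rp F (one (S := F.S)) := by
  refine ⟨∅, Eventually.of_forall fun i ω ω' _ _ _ => rfl, Eventually.of_forall fun i ω ω' _ _ _ => ?_⟩
  funext j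
  exact absurd j.2 (Finset.notMem_empty _)

theorem rp_pr {α β : Type*} {X : F.S.RV α} {Y : F.S.RV β} (hX : Rp F X) (hY : Rp F Y) : Rp F (Sys.pr X Y) := by
  classical
  obtain ⟨J, h1, h2⟩ := hX
  obtain ⟨J', h3, h4⟩ := hY
  refine ⟨J ∪ J', fpr (ftr h1 (tup_fn (vr F) Finset.subset_union_left)) (ftr h3 (tup_fn (vr F) Finset.subset_union_right)), ?_⟩
  have g1 : Sys.Fn (tup (vr F) J) (Sys.pr X Y) := ftr h2 (ffst _ _)
  have g2 : Sys.Fn (tup (vr F) J') (Sys.pr X Y) := ftr h4 (fsnd _ _)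
  filter_upwards [g1, g2] with i k1 k2 ω ω' p p' e
  funext j
  obtain ⟨j, hj⟩ := j
  rcases Finset.mem_union.1 hj with h | h
  · exact congrFun (k1 ω ω' p p' e) ⟨j, h⟩
  · exact congrFun (k2 ω ω' p p' e) ⟨j, h⟩

theorem FlatF.cnt (h : FlatF F) {α β : Type*} {X : F.S.RV α} {Z : F.S.RV β} (hX : Rp F X) (hZ : Rp F Z) :
    Cnt F.S X Z (F.S.hc X Z) := by
  obtain ⟨J, h1, h2⟩ := hX
  obtain ⟨J', h3, h4⟩ := hZ
  exact flat_congr ((h J).2.2 J') h2 h1 h4 h3

theorem FlatF.unf (h : FlatF F) {α : Type*} {X : F.S.RV α} (hX : Rp F X) : Unf F.S X (F.S.h X) := by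
  obtain ⟨J, h1, h2⟩ := hX
  exact unf_congr (h J).1 h2 h1

theorem FlatF.low (h : FlatF F) {α : Type*} {X : F.S.RV α} (hX : Rp F X) : Low F.S X (F.S.h X) := by
  obtain ⟨J, h1, h2⟩ := hX
  exact low_congr (h J).2.1 h2 h1

/-- `TGH` and flat tuples give `TGX` -/
theorem tgx_of {c1 κ : ℝ} {H J th : ℕ → ℝ} (hκ : 0 ≤ κ) (hG : TGH F c1 κ) (hF : FlatF F)
    (hC : Cts F.S K F.N F.Y F.T F.sg H J th) : TGX F c1 κ := by
  have hK := Kpos F
  have le : ∀ r : ℝ, r ≤ r + κ := fun r => by linarith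
  have ge : ∀ r : ℝ, r - κ ≤ r := fun r => by linarith
  refine { hG with N1 := ?_, UT := ?_, cb := ?_, cp := ?_, cd := ?_, ub := ?_, ud := ?_ }
  · intro b hb
    exact cnt_mono (hF.cnt (rp_N F hb) (rp_one F)) (le _)
  · intro c b hcb hb
    refine unf_mono (hF.unf (rp_pr (rp_N F hb) (rp_T F (hcb.trans hb)))) ?_
    have h1 := hc_pair (tame_N F hK hb) (tame_T F hK (hcb.trans hb)) (one (S := F.S))
    have h2 := tc_sum hC hcb hb
    have h3 : F.S.hc (F.T c) (Sys.pr (F.N b) (one (S := F.S))) = F.S.hc (F.T c) (F.N b) := Fi.hc_pr_one _ _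
    have e : ∑ i ∈ Finset.Ico c b, tc F i = ∑ c ∈ Finset.Ico c b, tc F c := rfl
    unfold Sys.h
    linarith
  · intro s s' h1 h2
    exact cnt_mono (hF.cnt (rp_bl F (h1.trans h2)) (rp_bl F h2)) (le _)
  · intro s w h1 h2 h3
    exact cnt_mono (hF.cnt (rp_pj F (by omega) h2) (rp_pr (rp_bl F h3) (rp_Y F h2))) (le _)
  · intro d s h1 h2
    exact cnt_mono (hF.cnt (rp_Y F h1) (rp_bl F h2)) (le _)
  · intro s h1
    exact unf_mono (hF.unf (rp_bl F h1)) (ge _)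
  · intro d s h1 h2
    exact unf_mono (hF.unf (rp_pr (rp_bl F h2) (rp_Y F h1))) (ge _)

/-- 228's form -/
theorem FlatF.flat (hF : FlatF F) : Flat F where
  cb := fun _ _ h1 h2 => hF.cnt (rp_bl F (h1.trans h2)) (rp_bl F h2)
  cp := fun _ _ _ h2 h3 => hF.cnt (rp_pj F (by omega) h2) (rp_pr (rp_bl F h3) (rp_Y F h2))
  cd := fun _ _ h1 h2 => hF.cnt (rp_Y F h1) (rp_bl F h2)
  ub := fun _ h1 => hF.unf (rp_bl F h1)
  ud := fun _ _ h1 h2 => hF.unf (rp_pr (rp_bl F h2) (rp_Y F h1))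
  N1 := fun _ hb => hF.cnt (rp_N F hb) (rp_one F)
  UT := fun _ _ hcb hb => hF.unf (rp_pr (rp_N F hb) (rp_T F (hcb.trans hb)))
  Lx := hF.low (rp_x F)

theorem stFlat : StFlat := fun _ F => by
  obtain ⟨S', d, hs, h⟩ := exists_flat F
  exact ⟨S', d, hs, h.flat⟩

end Vale.Agent.P076.H429
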