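import Mathlib

/-! # P076 / H429 : the counting core of the slices (helper429) -/

set_option autoImplicit false

open Finset

namespace Vale.Agent.P076.H429

/-- sum of a geometric series over a finite set of exponents -/
theorem geo_le (x : ℝ) (hx0 : 0 ≤ x) (hx : x ≤ 1 / 4) (J : Finset ℕ) : ∑ a ∈ J, x ^ a ≤ 4 / 3 := by
  have hx1 : x < 1 := by linarith
  have h1 : ∑ a ∈ J, x ^ a ≤ ∑' a : ℕ, x ^ a :=
    (summable_geometric_of_lt_one hx0 hx1).sum_le_tsum J fun a _ => pow_nonneg hx0 a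
  rw [tsum_geometric_of_lt_one hx0 hx1] at h1
  refine h1.trans ?_
  rw [inv_le_comm₀ (by linarith) (by norm_num)]
  norm_num
  linarith

/-- good points -/
theorem core_good {ι : Type*} {B : Finset ι} {kn : ι → ℤ × ℤ} {j1 j2 : ι → ℕ}
    {m1 m2 : ℤ → ℤ → ℕ → ℝ} {α S P M1 M2 : ℝ} {W : Finset ℤ} (hS : 0 < S) (hP : 0 ≤ P) (hM1 : 0 ≤ M1) (hM2 : 0 ≤ M2)
    (hW : ∀ i ∈ B, (kn i).2 ∈ W)
    (h1 : ∀ k n a b, ∀ E ⊆ B, (∀ i ∈ E, kn i = (k, n) ∧ j1 i = a ∧ j2 i = b) →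
      α ^ 2 * E.card ≤ P * (1 / 64) ^ (a + b) * (m1 k n a + m2 k n b))
    (h41 : ∀ n a, ∀ K : Finset ℤ, ∑ k ∈ K, m1 k n a ≤ (1 / 4) ^ a / S * M1)
    (h42 : ∀ n a, ∀ K : Finset ℤ, ∑ k ∈ K, m2 k n a ≤ (1 / 4) ^ a / S * M2) :
    α ^ 2 * B.card ≤ 4 * W.card * P / S * (M1 + M2) := by
  classical
  set K : Finset ℤ := B.image fun i => (kn i).1 with hK
  set J1 : Finset ℕ := B.image j1 with hJ1
  set J2 : Finset ℕ := B.image j2 with hJ2
  set f : ι → (ℤ × ℤ) × (ℕ × ℕ) := fun i => ((((kn i).1, (kn i).2)), (j1 i, j2 i)) with hf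
  have hmap : ∀ i ∈ B, f i ∈ (K ×ˢ W) ×ˢ (J1 ×ˢ J2) := by
    intro i hi
    simp only [hf, Finset.mem_product]
    exact ⟨⟨Finset.mem_image_of_mem _ hi, hW i hi⟩, Finset.mem_image_of_mem _ hi, Finset.mem_image_of_mem _ hi⟩
  have hcard : (B.card : ℝ) = ∑ p ∈ (K ×ˢ W) ×ˢ (J1 ×ˢ J2), ((B.filter fun i => f i = p).card : ℝ) := by
    exact_mod_cast Finset.card_eq_sum_card_fiberwise hmap
  rw [hcard, Finset.mul_sum]
  have hb : ∀ p ∈ (K ×ˢ W) ×ˢ (J1 ×ˢ J2), α ^ 2 * ((B.filter fun i => f i = p).card : ℝ) ≤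
      P * (1 / 64) ^ (p.2.1 + p.2.2) * (m1 p.1.1 p.1.2 p.2.1 + m2 p.1.1 p.1.2 p.2.2) := by
    intro p _
    refine h1 p.1.1 p.1.2 p.2.1 p.2.2 _ (Finset.filter_subset _ _) fun i hi => ?_
    have := (Finset.mem_filter.1 hi).2
    rw [← this]
    simp [hf]
  refine (Finset.sum_le_sum hb).trans ?_
  rw [Finset.sum_product, Finset.sum_product_right]
  -- sum over windows
  have hn : ∀ n ∈ W, ∑ k ∈ K, ∑ q ∈ J1 ×ˢ J2, P * (1 / 64) ^ (q.1 + q.2) * (m1 k n q.1 + m2 k n q.2) ≤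
      4 * P / S * (M1 + M2) := by
    intro n _
    rw [Finset.sum_comm]
    have h2 : ∀ q ∈ J1 ×ˢ J2, ∑ k ∈ K, P * (1 / 64) ^ (q.1 + q.2) * (m1 k n q.1 + m2 k n q.2) ≤
        P / S * ((1 / 64 : ℝ) ^ q.1 * (1 / 64) ^ q.2) * (M1 + M2) := by
      intro q _
      rw [← Finset.mul_sum, Finset.sum_add_distrib, pow_add]
      have a1 : (1 / 4 : ℝ) ^ q.1 ≤ 1 := pow_le_one₀ (by norm_num) (by norm_num)
      have a2 : (1 / 4 : ℝ) ^ q.2 ≤ 1 := pow_le_one₀ (by norm_num) (by norm_num)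
      have b1 : ∑ k ∈ K, m1 k n q.1 ≤ 1 / S * M1 := (h41 n q.1 K).trans (by gcongr)
      have b2 : ∑ k ∈ K, m2 k n q.2 ≤ 1 / S * M2 := (h42 n q.2 K).trans (by gcongr)
      calc P * ((1 / 64) ^ q.1 * (1 / 64) ^ q.2) * (∑ k ∈ K, m1 k n q.1 + ∑ k ∈ K, m2 k n q.2)
          ≤ P * ((1 / 64) ^ q.1 * (1 / 64) ^ q.2) * (1 / S * M1 + 1 / S * M2) :=
            mul_le_mul_of_nonneg_left (add_le_add b1 b2) (by positivity)
        _ = _ := by ring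
    refine (Finset.sum_le_sum h2).trans ?_
    rw [← Finset.sum_mul, ← Finset.mul_sum, Finset.sum_product]
    simp only [← Finset.mul_sum, ← Finset.sum_mul]
    have g1 := geo_le (1 / 64) (by norm_num) (by norm_num) J1
    have g2 := geo_le (1 / 64) (by norm_num) (by norm_num) J2
    have g10 : 0 ≤ ∑ a ∈ J1, (1 / 64 : ℝ) ^ a := Finset.sum_nonneg fun a _ => by positivity
    have g20 : 0 ≤ ∑ a ∈ J2, (1 / 64 : ℝ) ^ a := Finset.sum_nonneg fun a _ => by positivity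
    have g3 : (∑ a ∈ J1, (1 / 64 : ℝ) ^ a) * ∑ a ∈ J2, (1 / 64 : ℝ) ^ a ≤ 4 := by nlinarith
    calc P / S * ((∑ a ∈ J1, (1 / 64 : ℝ) ^ a) * ∑ a ∈ J2, (1 / 64 : ℝ) ^ a) * (M1 + M2)
        ≤ P / S * 4 * (M1 + M2) := by gcongr
      _ = _ := by ring
  refine (Finset.sum_le_sum hn).trans ?_
  rw [Finset.sum_const, nsmul_eq_mul]
  refine le_of_eq ?_
  ring

/-- points in bad squares of the profiles of one family -/
theorem core_bad {ι : Type*} {B : Finset ι} {kn sq : ι → ℤ × ℤ} {j : ι → ℕ}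
    {m : ℤ → ℤ → ℕ → ℝ} {Bd : ℤ → ℤ → ℕ → Finset (ℤ × ℤ)} {α S g Q M : ℝ} {W : Finset ℤ} (hS : 0 < S) (hg : 0 ≤ g)
    (hQ : 0 ≤ Q) (hM : 0 ≤ M) (hW : ∀ i ∈ B, (kn i).2 ∈ W)
    (h2 : ∀ k n q, ((B.filter fun i => kn i = (k, n) ∧ sq i = q).card : ℝ) ≤ g * S ^ 2)
    (h3 : ∀ k n a, α ^ 2 * ((Bd k n a).card : ℝ) ≤ Q * m k n a)
    (h4 : ∀ n a, ∀ K : Finset ℤ, ∑ k ∈ K, m k n a ≤ (1 / 4) ^ a / S * M)
    (hB : ∀ i ∈ B, sq i ∈ Bd (kn i).1 (kn i).2 (j i)) :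
    α ^ 2 * B.card ≤ 2 * W.card * (g * S ^ 2 * Q) / S * M := by
  classical
  set K : Finset ℤ := B.image fun i => (kn i).1 with hK
  set J : Finset ℕ := B.image j with hJ
  set f : ι → (ℤ × ℤ) × ℕ := fun i => ((((kn i).1, (kn i).2)), j i) with hf
  have hmap : ∀ i ∈ B, f i ∈ (K ×ˢ W) ×ˢ J := by
    intro i hi
    simp only [hf, Finset.mem_product]
    exact ⟨⟨Finset.mem_image_of_mem _ hi, hW i hi⟩, Finset.mem_image_of_mem _ hi⟩
  have hcard : (B.card : ℝ) = ∑ p ∈ (K ×ˢ W) ×ˢ J, ((B.filter fun i => f i = p).card : ℝ) := by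
    exact_mod_cast Finset.card_eq_sum_card_fiberwise hmap
  rw [hcard, Finset.mul_sum]
  have hgS : 0 ≤ g * S ^ 2 := by positivity
  have hb : ∀ p ∈ (K ×ˢ W) ×ˢ J, α ^ 2 * ((B.filter fun i => f i = p).card : ℝ) ≤
      g * S ^ 2 * (Q * m p.1.1 p.1.2 p.2) := by
    intro p _
    have c1 : ((B.filter fun i => f i = p).card : ℝ) ≤ g * S ^ 2 * (Bd p.1.1 p.1.2 p.2).card := by
      have hm : ∀ i ∈ B.filter (fun i => f i = p), sq i ∈ Bd p.1.1 p.1.2 p.2 := by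
        intro i hi
        obtain ⟨hi1, hi2⟩ := Finset.mem_filter.1 hi
        rw [← hi2]
        exact hB i hi1
      have c2 : ((B.filter fun i => f i = p).card : ℝ) =
          ∑ q ∈ Bd p.1.1 p.1.2 p.2, (((B.filter fun i => f i = p).filter fun i => sq i = q).card : ℝ) := by
        exact_mod_cast Finset.card_eq_sum_card_fiberwise hm
      rw [c2]
      refine (Finset.sum_le_card_nsmul _ _ (g * S ^ 2) fun q _ => ?_).trans (le_of_eq ?_)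
      · refine le_trans ?_ (h2 p.1.1 p.1.2 q)
        exact_mod_cast Finset.card_le_card (by
          intro i hi
          obtain ⟨hi1, hi2⟩ := Finset.mem_filter.1 hi
          obtain ⟨hi3, hi4⟩ := Finset.mem_filter.1 hi1
          rw [Finset.mem_filter]
          refine ⟨hi3, ?_, hi2⟩
          rw [← hi4])
      · rw [nsmul_eq_mul, mul_comm]
    calc α ^ 2 * ((B.filter fun i => f i = p).card : ℝ) ≤ α ^ 2 * (g * S ^ 2 * (Bd p.1.1 p.1.2 p.2).card) :=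
          mul_le_mul_of_nonneg_left c1 (sq_nonneg _)
      _ = g * S ^ 2 * (α ^ 2 * (Bd p.1.1 p.1.2 p.2).card) := by ring
      _ ≤ _ := mul_le_mul_of_nonneg_left (h3 _ _ _) hgS
  refine (Finset.sum_le_sum hb).trans ?_
  rw [Finset.sum_product, Finset.sum_product_right]
  have hn : ∀ n ∈ W, ∑ k ∈ K, ∑ a ∈ J, g * S ^ 2 * (Q * m k n a) ≤ 2 * (g * S ^ 2 * Q) / S * M := by
    intro n _
    rw [Finset.sum_comm]
    have h5 : ∀ a ∈ J, ∑ k ∈ K, g * S ^ 2 * (Q * m k n a) ≤ (1 / 4 : ℝ) ^ a * (g * S ^ 2 * Q / S * M) := by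
      intro a _
      rw [← Finset.mul_sum, ← Finset.mul_sum]
      calc g * S ^ 2 * (Q * ∑ k ∈ K, m k n a) ≤ g * S ^ 2 * (Q * ((1 / 4) ^ a / S * M)) :=
            mul_le_mul_of_nonneg_left (mul_le_mul_of_nonneg_left (h4 n a K) hQ) hgS
        _ = _ := by ring
    refine (Finset.sum_le_sum h5).trans ?_
    rw [← Finset.sum_mul]
    have g1 := geo_le (1 / 4) (by norm_num) le_rfl J
    calc (∑ a ∈ J, (1 / 4 : ℝ) ^ a) * (g * S ^ 2 * Q / S * M) ≤ 2 * (g * S ^ 2 * Q / S * M) :=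
          mul_le_mul_of_nonneg_right (g1.trans (by norm_num)) (by positivity)
      _ = _ := by ring
  refine (Finset.sum_le_sum hn).trans ?_
  rw [Finset.sum_const, nsmul_eq_mul]
  refine le_of_eq ?_
  ring

/-- **counting core of the slices** : `kn` = block `(x 1, t)`, `sq` = `S`-square `(x 0, t)`, `j1 j2` = Taylor indices,
`m1 m2` = masses of the slice profiles, `Bd1 Bd2` = bad squares -/
theorem h4_core {ι : Type*} (B : Finset ι) (kn sq : ι → ℤ × ℤ) (j1 j2 : ι → ℕ)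
    (m1 m2 : ℤ → ℤ → ℕ → ℝ) (Bd1 Bd2 : ℤ → ℤ → ℕ → Finset (ℤ × ℤ)) {α S g P Q M1 M2 : ℝ} (W : Finset ℤ) (hS : 0 < S)
    (hg : 0 ≤ g) (hP : 0 ≤ P) (hQ : 0 ≤ Q) (hM1 : 0 ≤ M1) (hM2 : 0 ≤ M2) (hW : ∀ i ∈ B, (kn i).2 ∈ W)
    (h1 : ∀ k n a b, ∀ E ⊆ B, (∀ i ∈ E, kn i = (k, n) ∧ j1 i = a ∧ j2 i = b ∧ sq i ∉ Bd1 k n a ∧ sq i ∉ Bd2 k n b) →
      α ^ 2 * E.card ≤ P * (1 / 64) ^ (a + b) * (m1 k n a + m2 k n b))
    (h2 : ∀ k n q, ((B.filter fun i => kn i = (k, n) ∧ sq i = q).card : ℝ) ≤ g * S ^ 2)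
    (h31 : ∀ k n a, α ^ 2 * ((Bd1 k n a).card : ℝ) ≤ Q * m1 k n a)
    (h32 : ∀ k n a, α ^ 2 * ((Bd2 k n a).card : ℝ) ≤ Q * m2 k n a)
    (h41 : ∀ n a, ∀ K : Finset ℤ, ∑ k ∈ K, m1 k n a ≤ (1 / 4) ^ a / S * M1)
    (h42 : ∀ n a, ∀ K : Finset ℤ, ∑ k ∈ K, m2 k n a ≤ (1 / 4) ^ a / S * M2) :
    α ^ 2 * B.card ≤ 4 * W.card * (P + g * S ^ 2 * Q) / S * (M1 + M2) := by
  classical
  obtain ⟨B0, hB0⟩ : ∃ X, X = B.filter fun i => sq i ∉ Bd1 (kn i).1 (kn i).2 (j1 i) ∧ sq i ∉ Bd2 (kn i).1 (kn i).2 (j2 i) :=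
    ⟨_, rfl⟩
  obtain ⟨B1, hB1⟩ : ∃ X, X = B.filter fun i => sq i ∈ Bd1 (kn i).1 (kn i).2 (j1 i) := ⟨_, rfl⟩
  obtain ⟨B2, hB2⟩ : ∃ X, X = B.filter fun i => sq i ∈ Bd2 (kn i).1 (kn i).2 (j2 i) := ⟨_, rfl⟩
  have s0 : B0 ⊆ B := by rw [hB0]; exact Finset.filter_subset _ _
  have s1 : B1 ⊆ B := by rw [hB1]; exact Finset.filter_subset _ _
  have s2 : B2 ⊆ B := by rw [hB2]; exact Finset.filter_subset _ _
  have hcov : B ⊆ B0 ∪ B1 ∪ B2 := by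
    intro i hi
    rw [hB0, hB1, hB2]
    simp only [Finset.mem_union, Finset.mem_filter, hi, true_and]
    by_cases h : sq i ∈ Bd1 (kn i).1 (kn i).2 (j1 i)
    · exact Or.inl (Or.inr h)
    by_cases h' : sq i ∈ Bd2 (kn i).1 (kn i).2 (j2 i)
    · exact Or.inr h'
    · exact Or.inl (Or.inl ⟨h, h'⟩)
  have hc : (B.card : ℝ) ≤ B0.card + B1.card + B2.card := by
    have e1 := Finset.card_le_card hcov
    have e2 := Finset.card_union_le (B0 ∪ B1) B2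
    have e3 := Finset.card_union_le B0 B1
    have : B.card ≤ B0.card + B1.card + B2.card := by omega
    exact_mod_cast this
  have r0 := core_good (B := B0) (kn := kn) (j1 := j1) (j2 := j2) (m1 := m1) (m2 := m2) (α := α) (W := W) hS hP hM1 hM2
    (fun i hi => hW i (s0 hi)) (fun k n a b E hE hE' => h1 k n a b E (hE.trans s0) fun i hi => by
      obtain ⟨e1, e2, e3⟩ := hE' i hi
      have h := hE hi
      rw [hB0, Finset.mem_filter, e1, e2, e3] at h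
      exact ⟨e1, e2, e3, h.2.1, h.2.2⟩) h41 h42
  have hsub : ∀ X ⊆ B, ∀ k n q, ((X.filter fun i => kn i = (k, n) ∧ sq i = q).card : ℝ) ≤ g * S ^ 2 := by
    intro X hX k n q
    refine le_trans ?_ (h2 k n q)
    exact_mod_cast Finset.card_le_card (Finset.filter_subset_filter _ hX)
  have r1 := core_bad (B := B1) (kn := kn) (sq := sq) (j := j1) (m := m1) (Bd := Bd1) (α := α) (W := W) hS hg hQ hM1
    (fun i hi => hW i (s1 hi)) (hsub B1 s1) h31 h41 (fun i hi => by rw [hB1, Finset.mem_filter] at hi; exact hi.2)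
  have r2 := core_bad (B := B2) (kn := kn) (sq := sq) (j := j2) (m := m2) (Bd := Bd2) (α := α) (W := W) hS hg hQ hM2
    (fun i hi => hW i (s2 hi)) (hsub B2 s2) h32 h42 (fun i hi => by rw [hB2, Finset.mem_filter] at hi; exact hi.2)
  have hα := mul_le_mul_of_nonneg_left hc (sq_nonneg α)
  have hW0 : (0:ℝ) ≤ W.card := Nat.cast_nonneg _
  have hx : 0 ≤ 2 * W.card * (g * S ^ 2 * Q) / S * (M1 + M2) := by positivity
  calc α ^ 2 * (B.card : ℝ) ≤ α ^ 2 * B0.card + α ^ 2 * B1.card + α ^ 2 * B2.card := by linarith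
    _ ≤ 4 * W.card * P / S * (M1 + M2) + 2 * W.card * (g * S ^ 2 * Q) / S * M1 + 2 * W.card * (g * S ^ 2 * Q) / S * M2 := by
        linarith
    _ = 4 * W.card * P / S * (M1 + M2) + 2 * W.card * (g * S ^ 2 * Q) / S * (M1 + M2) := by ring
    _ ≤ 4 * W.card * P / S * (M1 + M2) + 2 * W.card * (g * S ^ 2 * Q) / S * (M1 + M2) +
        2 * W.card * (g * S ^ 2 * Q) / S * (M1 + M2) := by linarith
    _ = _ := by ring

end Vale.Agent.P076.H429
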