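import Vale.Agent.P076.NS.Geo
import Vale.Agent.P076.BG.Defs

/-! # P076 / H429 : from one window (`StLW1`) to all the scales, `ε` form (helper429) -/

set_option autoImplicit false

open Filter Topology Finset Vale.Agent.P127 Vale.Agent.P127.Stk Vale.Agent.P127.U Vale.Agent.P127.U.Sys
  Vale.Agent.P122.C2 Vale.Agent.P122.E Vale.Agent.P122.H518 Vale.Agent.P122.K931 Vale.Agent.P076.NS Vale.Agent.P076.BG

namespace Vale.Agent.P076.H429

variable {K : ℕ} (F : Flg K)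

/-- number of directions -/
theorem cnt_Y {c : ℕ} (hc : c ≤ K) : Cnt F.S (F.Y c) (one (S := F.S)) (2 * c / K) := by
  intro ε hε
  have hK : 1 ≤ K := Kpos F
  refine Eventually.of_forall fun i ω _ => ?_
  refine ⟨Fintype.piFinset fun _ : Fin 2 => Finset.Ico (0:ℤ) (2 ^ (c * F.n i)), ?_, ?_⟩
  · rw [Fintype.card_piFinset]
    simp only [Int.card_Ico, sub_zero, Finset.prod_const, Finset.card_univ, Fintype.card_fin]
    have e0 : ((2:ℤ) ^ (c * F.n i)).toNat = 2 ^ (c * F.n i) := by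
      have : (2:ℤ) ^ (c * F.n i) = ((2 ^ (c * F.n i) : ℕ) : ℤ) := by push_cast; ring
      rw [this, Int.toNat_natCast]
    rw [e0]
    have hK' : (0 : ℝ) < K := by exact_mod_cast hK
    have h2 : (((2 ^ (c * F.n i)) ^ 2 : ℕ) : ℝ) = (2 : ℝ) ^ ((2 * c / K) * (F.S.L i : ℝ)) := by
      rw [F.L_eq i]
      push_cast
      have h3 : (2 : ℝ) * c / K * (K * F.n i) = ((c * F.n i * 2 : ℕ) : ℝ) := by
        push_cast
        field_simp
      rw [h3, Real.rpow_natCast, ← pow_mul]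
    rw [h2]
    refine Real.rpow_le_rpow_of_exponent_le (by norm_num) ?_
    have h4 : (0 : ℝ) ≤ F.S.L i := Nat.cast_nonneg _
    nlinarith
  · intro ω' hω' _
    rw [Fintype.mem_piFinset]
    intro k
    rw [Finset.mem_Ico]
    exact cap_of F hω' c hc k

theorem h_Y_le {c : ℕ} (hc : c ≤ K) : F.S.h (F.Y c) ≤ 2 * c / K := cnt_hc_le (cnt_Y F hc)

/-- the ball of radius `s` determines the larger balls -/
theorem fn_bl_bl {s s' : ℕ} (h : s ≤ s') : Sys.Fn (NS.bl F s') (NS.bl F s) :=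
  Eventually.of_forall fun i ω ω' _ _ e => by
    have e1 : (F.N 0 i ω).T / 2 ^ (s * F.n i) = (F.N 0 i ω').T / 2 ^ (s * F.n i) := congrArg Prod.fst e
    have e2 : (fun k => (F.N 0 i ω).o k / 2 ^ (s * F.n i)) = fun k => (F.N 0 i ω').o k / 2 ^ (s * F.n i) :=
      congrArg Prod.snd e
    have hp : (2:ℤ) ^ (s' * F.n i) = 2 ^ (s * F.n i) * 2 ^ ((s' - s) * F.n i) := by
      rw [← pow_add, ← add_mul]
      congr 2
      omega
    have hd : ∀ a : ℤ, a / 2 ^ (s' * F.n i) = a / 2 ^ (s * F.n i) / 2 ^ ((s' - s) * F.n i) := fun a => by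
      rw [hp, Int.ediv_ediv_of_nonneg (by positivity)]
    show ((F.N 0 i ω).T / 2 ^ (s' * F.n i), fun k => (F.N 0 i ω).o k / 2 ^ (s' * F.n i)) =
      ((F.N 0 i ω').T / 2 ^ (s' * F.n i), fun k => (F.N 0 i ω').o k / 2 ^ (s' * F.n i))
    refine Prod.ext ?_ ?_
    · simp only [hd, e1]
    · funext k
      have := congrFun e2 k
      simp only [hd, this]

/-- entropy of a ball in a larger one -/
theorem hc_bl {s s' : ℕ} (h : s ≤ s') : F.S.hc (NS.bl F s) (NS.bl F s') = F.S.h (NS.bl F s) - F.S.h (NS.bl F s') := by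
  have h1 := hc_pair (tame_bl F s') (tame_bl F s) (one (S := F.S))
  have h2 : F.S.hc (Sys.pr (NS.bl F s') (NS.bl F s)) (one (S := F.S)) = F.S.hc (NS.bl F s) (one (S := F.S)) :=
    hc_congr (fpr (ftr (fn_bl_bl F h) (ffst _ _)) (ffst _ _)) (ftr (fsnd _ _) (ffst _ _))
      (frf _) (frf _)
  have h3 : F.S.hc (NS.bl F s) (Sys.pr (NS.bl F s') (one (S := F.S))) = F.S.hc (NS.bl F s) (NS.bl F s') := Fi.hc_pr_one _ _
  unfold Sys.h
  linarith

theorem sum_ico_blocks (f : ℕ → ℝ) (m q : ℕ) :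
    ∑ i ∈ Finset.Ico 1 q, ∑ c ∈ Finset.Ico (i * m) ((i + 1) * m), f c = ∑ c ∈ Finset.Ico (1 * m) (max 1 q * m), f c := by
  induction q with
  | zero => simp
  | succ q ih =>
    rcases Nat.eq_zero_or_pos q with rfl | hq
    · simp
    · rw [Finset.sum_Ico_succ_top (by omega), ih]
      have e1 : max 1 q = q := by omega
      have e2 : max 1 (q + 1) = q + 1 := by omega
      rw [e1, e2]
      exact Finset.sum_Ico_consecutive f (Nat.mul_le_mul_right _ (by omega)) (Nat.mul_le_mul_right _ (by omega))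

/-- windows of `m` levels -/
theorem lw_win {A : ℝ} {c1 : ℝ} (hG : TG0 F c1)
    (hA : ∀ s w : ℕ, 1 ≤ w → w ≤ s → w ≤ K → s + w ≤ 2 * K →
      3 * F.S.hc (NS.bl F s) (Sys.pr (NS.bl F (s + w)) (Sys.pr (F.Y w) (pj F s w))) ≤
        F.S.hc (NS.bl F s) (NS.bl F (s + w)) + 6 * gw F w s + A / K)
    {m i : ℕ} (hm : 1 ≤ m) (hi : 1 ≤ i) (hiK : (i + 1) * m ≤ K) :
    3 * ∑ c ∈ Finset.Ico (i * m) ((i + 1) * m), tc F c ≤
      (F.S.h (NS.bl F (2 * (i * m))) - F.S.h (NS.bl F (2 * ((i + 1) * m)))) +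
        6 * (F.S.hc (F.Y (2 * m)) (NS.bl F (2 * ((i + 1) * m))) - F.S.hc (F.Y (2 * m)) (NS.bl F (2 * (i * m)))) + A / K := by
  have hmi : m ≤ i * m := Nat.le_mul_of_pos_left _ hi
  have e1 : (i + 1) * m = i * m + m := by ring
  have h1 := hG.I2 (i * m) ((i + 1) * m) (by omega) hiK
  have h2 := hG.I2' ((i + 1) * m) (2 * (i * m)) (2 * ((i + 1) * m)) (by omega) (by omega) (by omega) (by omega) hiK
  have e2 : 2 * ((i + 1) * m) - 2 * (i * m) = 2 * m := by omega
  rw [e2] at h2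
  have h3 := hA (2 * (i * m)) (2 * m) (by omega) (by omega) (by omega) (by omega)
  have e3 : 2 * (i * m) + 2 * m = 2 * ((i + 1) * m) := by omega
  unfold gw at h3
  rw [e3, hc_bl F (by omega)] at h3
  linarith

theorem lwe (h : StLW1) : StLWe := by
  obtain ⟨A, hA0, hA⟩ := h
  intro ε hε
  -- `m` with `A / m ≤ ε / 2`
  obtain ⟨m, hm⟩ := exists_nat_gt (max 1 (2 * A / ε))
  have hm1 : (1:ℝ) < m := lt_of_le_of_lt (le_max_left _ _) hm
  have hm1' : 1 ≤ m := by exact_mod_cast hm1.le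
  have hmA : 2 * A / ε < m := lt_of_le_of_lt (le_max_right _ _) hm
  obtain ⟨K0, hK0⟩ := exists_nat_gt (max (2 * m) (72 * m / ε) : ℝ)
  refine ⟨K0, ?_⟩
  intro c1 hc1 K F hK hG
  have hK1 : (2 * m : ℝ) < K := lt_of_le_of_lt (le_max_left _ _) (hK0.trans_le (Nat.cast_le.2 hK))
  have hK2 : 72 * m / ε < K := lt_of_le_of_lt (le_max_right _ _) (hK0.trans_le (Nat.cast_le.2 hK))
  have hK1' : 2 * m < K := by exact_mod_cast hK1
  have hKp : (0:ℝ) < K := by linarith
  have hmp : (0:ℝ) < m := by linarith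
  set q := K / m with hq
  have hq2 : 2 ≤ q := by
    rw [hq, Nat.le_div_iff_mul_le (by omega)]
    omega
  have hqm : q * m ≤ K := Nat.div_mul_le_self K m
  have hqm2 : K < (q + 1) * m := by
    have h1 := Nat.div_add_mod K m
    have h2 := Nat.mod_lt K (by omega : 0 < m)
    rw [← hq] at h1
    have h3 : (q + 1) * m = m * q + m := by ring
    omega
  have hwin := fun i (hi : 1 ≤ i) (hi2 : i < q) => lw_win F hG (hA c1 hc1 K F (by omega) hG) hm1' hi
    ((Nat.mul_le_mul_right m (by omega : i + 1 ≤ q)).trans hqm)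
  -- sum over the windows
  have hsum : 3 * ∑ i ∈ Finset.Ico 1 q, ∑ c ∈ Finset.Ico (i * m) ((i + 1) * m), tc F c ≤
      (F.S.h (NS.bl F (2 * (1 * m))) - F.S.h (NS.bl F (2 * (q * m)))) +
        6 * (F.S.hc (F.Y (2 * m)) (NS.bl F (2 * (q * m))) - F.S.hc (F.Y (2 * m)) (NS.bl F (2 * (1 * m)))) + q * (A / K) := by
    rw [Finset.mul_sum]
    have t1 : ∑ i ∈ Finset.Ico 1 q, 3 * ∑ c ∈ Finset.Ico (i * m) ((i + 1) * m), tc F c ≤
        ∑ i ∈ Finset.Ico 1 q, ((F.S.h (NS.bl F (2 * (i * m))) - F.S.h (NS.bl F (2 * ((i + 1) * m)))) +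
        6 * (F.S.hc (F.Y (2 * m)) (NS.bl F (2 * ((i + 1) * m))) - F.S.hc (F.Y (2 * m)) (NS.bl F (2 * (i * m)))) + A / K) :=
      Finset.sum_le_sum fun i hi => hwin i (Finset.mem_Ico.1 hi).1 (Finset.mem_Ico.1 hi).2
    refine t1.trans ?_
    rw [Finset.sum_add_distrib, Finset.sum_add_distrib, ← Finset.mul_sum, Finset.sum_const, Nat.card_Ico, nsmul_eq_mul]
    have t2 : ∑ i ∈ Finset.Ico 1 q, (F.S.h (NS.bl F (2 * (i * m))) - F.S.h (NS.bl F (2 * ((i + 1) * m)))) =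
        F.S.h (NS.bl F (2 * (1 * m))) - F.S.h (NS.bl F (2 * (q * m))) := by
      have := Finset.sum_Ico_sub (fun i => F.S.h (NS.bl F (2 * (i * m)))) (by omega : 1 ≤ q)
      rw [← neg_inj, ← Finset.sum_neg_distrib]
      simp only [neg_sub]
      exact this
    have t3 : ∑ i ∈ Finset.Ico 1 q, (F.S.hc (F.Y (2 * m)) (NS.bl F (2 * ((i + 1) * m))) -
        F.S.hc (F.Y (2 * m)) (NS.bl F (2 * (i * m)))) =
        F.S.hc (F.Y (2 * m)) (NS.bl F (2 * (q * m))) - F.S.hc (F.Y (2 * m)) (NS.bl F (2 * (1 * m))) :=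
      Finset.sum_Ico_sub (fun i => F.S.hc (F.Y (2 * m)) (NS.bl F (2 * (i * m)))) (by omega : 1 ≤ q)
    rw [t2, t3]
    have t4 : ((q - 1 : ℕ) : ℝ) * (A / K) ≤ q * (A / K) :=
      mul_le_mul_of_nonneg_right (by exact_mod_cast Nat.sub_le q 1) (by positivity)
    linarith
  rw [sum_ico_blocks] at hsum
  have e1 : max 1 q = q := by omega
  rw [e1, one_mul] at hsum
  -- the other levels
  have hsplit : ∑ c ∈ Finset.range K, tc F c = ∑ c ∈ Finset.range m, tc F c + ∑ c ∈ Finset.Ico m (q * m), tc F c +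
      ∑ c ∈ Finset.Ico (q * m) K, tc F c := by
    rw [Finset.range_eq_Ico, Finset.range_eq_Ico, Finset.sum_Ico_consecutive _ (by omega) (Nat.le_mul_of_pos_left _ (by omega)),
      Finset.sum_Ico_consecutive _ (by omega) hqm]
  have hr1 : ∑ c ∈ Finset.range m, tc F c ≤ m * (2 / K) := by
    have := Finset.sum_le_card_nsmul (Finset.range m) (fun c => tc F c) (2 / K) fun c hc => hG.t1 c
      (by have := Finset.mem_range.1 hc; omega)
    rwa [Finset.card_range, nsmul_eq_mul] at this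
  have hr2 : ∑ c ∈ Finset.Ico (q * m) K, tc F c ≤ m * (2 / K) := by
    have := Finset.sum_le_card_nsmul (Finset.Ico (q * m) K) (fun c => tc F c) (2 / K) fun c hc => hG.t1 c
      (Finset.mem_Ico.1 hc).2
    rw [Nat.card_Ico, nsmul_eq_mul] at this
    refine this.trans (mul_le_mul_of_nonneg_right ?_ (by positivity))
    have e : (q + 1) * m = q * m + m := by ring
    have : K - q * m ≤ m := by omega
    exact_mod_cast this
  have hY : F.S.hc (F.Y (2 * m)) (NS.bl F (2 * (q * m))) ≤ 4 * m / K := by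
    refine (hc_le_h (tame_Y F (by omega)) _).trans ((h_Y_le F (by omega)).trans (le_of_eq ?_))
    push_cast
    ring
  have hY0 : 0 ≤ F.S.hc (F.Y (2 * m)) (NS.bl F (2 * m)) := hc_nonneg (tame_Y F (by omega)) _
  have hx : F.S.h (NS.bl F (2 * m)) ≤ F.S.h F.x := by
    refine hc_mono_left (tame_N F (by omega) (Nat.zero_le K)) (tame_bl F _) ?_
    exact ftr (fn_bl F _) (ffst _ _)
  have hb0 : 0 ≤ F.S.h (NS.bl F (2 * (q * m))) := hc_nonneg (tame_bl F _) _
  have hqA : (q:ℝ) * (A / K) ≤ ε / 2 := by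
    have h1 : (q:ℝ) * m ≤ K := by exact_mod_cast hqm
    have h2 : 2 * A < m * ε := by rwa [div_lt_iff₀ hε] at hmA
    rw [mul_div_assoc', div_le_iff₀ hKp]
    have h3 : (q:ℝ) * (2 * A) ≤ q * (m * ε) := mul_le_mul_of_nonneg_left h2.le (Nat.cast_nonneg _)
    nlinarith
  have hmK : 36 * (m / K : ℝ) ≤ ε / 2 := by
    rw [div_lt_iff₀ hε] at hK2
    rw [mul_div_assoc', div_le_iff₀ hKp]
    linarith
  have e4 : (4:ℝ) * m / K = 4 * (m / K) := by ring
  have e5 : (m:ℝ) * (2 / K) = 2 * (m / K) := by ring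
  rw [e4] at hY
  rw [e5] at hr1 hr2
  rw [hsplit]
  linarith

end Vale.Agent.P076.H429
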