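import Vale.Agent.P122.AN.Defs

/-! # P076 / H429 : linear changes of variables on `E3` and the parabolic rescaling maps (helper429) -/

set_option autoImplicit false

open MeasureTheory Complex Set Vale.Agent.P122.C2 Vale.Agent.P122.AN
open scoped ENNReal NNReal FourierTransform RealInnerProductSpace

namespace Vale.Agent.P076.H429

/-! ## change of variables -/

/-- a linear map with nonzero determinant as a homeomorphism -/
noncomputable def hom (f : E3 →ₗ[ℝ] E3) (hf : LinearMap.det f ≠ 0) : E3 ≃ₜ E3 :=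
  (LinearMap.equivOfDetNeZero f hf).toContinuousLinearEquiv.toHomeomorph

lemma hom_apply (f : E3 →ₗ[ℝ] E3) (hf : LinearMap.det f ≠ 0) (z : E3) : hom f hf z = f z := rfl

lemma emb (f : E3 →ₗ[ℝ] E3) (hf : LinearMap.det f ≠ 0) : MeasurableEmbedding f := by
  have := (hom f hf).measurableEmbedding
  exact this

theorem lintegral_lin (f : E3 →ₗ[ℝ] E3) (hf : LinearMap.det f ≠ 0) (F : E3 → ℝ≥0∞) :
    ∫⁻ z, F (f z) = ENNReal.ofReal |(LinearMap.det f)⁻¹| * ∫⁻ z, F z := by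
  rw [← (emb f hf).lintegral_map, Measure.map_linearMap_addHaar_eq_smul_addHaar volume hf, lintegral_smul_measure, smul_eq_mul]

theorem integral_lin (f : E3 →ₗ[ℝ] E3) (hf : LinearMap.det f ≠ 0) (F : E3 → ℂ) :
    ∫ z, F (f z) = (|(LinearMap.det f)⁻¹| : ℝ) • ∫ z, F z := by
  rw [← (emb f hf).integral_map, Measure.map_linearMap_addHaar_eq_smul_addHaar volume hf, integral_smul_measure,
    ENNReal.toReal_ofReal (abs_nonneg _)]

theorem integrable_lin (f : E3 →ₗ[ℝ] E3) (hf : LinearMap.det f ≠ 0) {F : E3 → ℂ} (hF : Integrable F) :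
    Integrable fun z => F (f z) := by
  have h1 : Integrable F (Measure.map f volume) := by
    rw [Measure.map_linearMap_addHaar_eq_smul_addHaar volume hf]
    exact hF.smul_measure ENNReal.ofReal_ne_top
  exact (emb f hf).integrable_map_iff.1 h1

/-! ## the maps -/

/-- linear part of the rescaling in frequency space, `l = 1 / D` -/
noncomputable def BL (l : ℝ) (a : Fin 2 → ℝ) : E3 →ₗ[ℝ] E3 where
  toFun η := !₂[l * η 0, l * η 1, -(l * (a 0 * η 0 + a 1 * η 1)) + l ^ 2 * η 2]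
  map_add' x y := by
    ext i; fin_cases i <;> simp <;> ring
  map_smul' c x := by
    ext i; fin_cases i <;> simp <;> ring

/-- rescaling in physical space -/
noncomputable def AL (l : ℝ) (a : Fin 2 → ℝ) : E3 →ₗ[ℝ] E3 where
  toFun z := !₂[l * (z 0 - a 0 * z 2), l * (z 1 - a 1 * z 2), l ^ 2 * z 2]
  map_add' x y := by
    ext i; fin_cases i <;> simp <;> ring
  map_smul' c x := by
    ext i; fin_cases i <;> simp <;> ring

@[simp] lemma BL_zero (l : ℝ) (a : Fin 2 → ℝ) (η : E3) : BL l a η 0 = l * η 0 := rfl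
@[simp] lemma BL_one (l : ℝ) (a : Fin 2 → ℝ) (η : E3) : BL l a η 1 = l * η 1 := rfl
@[simp] lemma BL_two (l : ℝ) (a : Fin 2 → ℝ) (η : E3) :
    BL l a η 2 = -(l * (a 0 * η 0 + a 1 * η 1)) + l ^ 2 * η 2 := rfl
@[simp] lemma AL_zero (l : ℝ) (a : Fin 2 → ℝ) (z : E3) : AL l a z 0 = l * (z 0 - a 0 * z 2) := rfl
@[simp] lemma AL_one (l : ℝ) (a : Fin 2 → ℝ) (z : E3) : AL l a z 1 = l * (z 1 - a 1 * z 2) := rfl
@[simp] lemma AL_two (l : ℝ) (a : Fin 2 → ℝ) (z : E3) : AL l a z 2 = l ^ 2 * z 2 := rfl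

lemma inner3 (x y : E3) : ⟪x, y⟫ = x 0 * y 0 + x 1 * y 1 + x 2 * y 2 := by
  rw [PiLp.inner_apply, Fin.sum_univ_three]
  simp [mul_comm]

lemma BL_inner (l : ℝ) (a : Fin 2 → ℝ) (η z : E3) : ⟪BL l a η, z⟫ = ⟪η, AL l a z⟫ := by
  rw [inner3, inner3]; simp; ring

lemma det_of_matrix (f : E3 →ₗ[ℝ] E3) (A : Matrix (Fin 3) (Fin 3) ℝ)
    (h : ∀ z i, f z i = ∑ j, A i j * z j) : LinearMap.det f = A.det := by
  have : f = Matrix.toLin (EuclideanSpace.basisFun (Fin 3) ℝ).toBasis (EuclideanSpace.basisFun (Fin 3) ℝ).toBasis A := by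
    apply LinearMap.ext
    intro z
    rw [Matrix.toLin_apply]
    ext i
    rw [h]
    simp [Matrix.mulVec, dotProduct, Finset.sum_apply, Pi.single_apply]
  rw [this, LinearMap.det_toLin]

lemma det_BL (l : ℝ) (a : Fin 2 → ℝ) : LinearMap.det (BL l a) = l ^ 4 := by
  rw [det_of_matrix (BL l a) !![l, 0, 0; 0, l, 0; -(l * a 0), -(l * a 1), l ^ 2]]
  · rw [Matrix.det_fin_three]; simp; ring
  · intro z i
    fin_cases i <;> simp [Fin.sum_univ_three] <;> ring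

lemma det_AL (l : ℝ) (a : Fin 2 → ℝ) : LinearMap.det (AL l a) = l ^ 4 := by
  rw [det_of_matrix (AL l a) !![l, 0, -(l * a 0); 0, l, -(l * a 1); 0, 0, l ^ 2]]
  · rw [Matrix.det_fin_three]; simp; ring
  · intro z i
    fin_cases i <;> simp [Fin.sum_univ_three] <;> ring

/-- the base point of the cap of slope `a` -/
noncomputable def bz (a : Fin 2 → ℝ) : E3 := !₂[a 0, a 1, -((a 0 ^ 2 + a 1 ^ 2) / 2)]

@[simp] lemma bz_zero (a : Fin 2 → ℝ) : bz a 0 = a 0 := rfl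
@[simp] lemma bz_one (a : Fin 2 → ℝ) : bz a 1 = a 1 := rfl
@[simp] lemma bz_two (a : Fin 2 → ℝ) : bz a 2 = -((a 0 ^ 2 + a 1 ^ 2) / 2) := rfl

/-- the rescaled frequency function -/
noncomputable def rs (l : ℝ) (a : Fin 2 → ℝ) (g : E3 → ℂ) (η : E3) : ℂ := (l ^ 4 : ℝ) • g (bz a + BL l a η)

/-- the phase -/
noncomputable def phz (a : Fin 2 → ℝ) (z : E3) : ℂ := cexp (((2 * Real.pi * ⟪bz a, z⟫ : ℝ) : ℂ) * I)

lemma norm_phz (a : Fin 2 → ℝ) (z : E3) : ‖phz a z‖ = 1 := by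
  unfold phz; exact Complex.norm_exp_ofReal_mul_I _

lemma enorm_phz (a : Fin 2 → ℝ) (z : E3) : ‖phz a z‖ₑ = 1 := by
  rw [← ofReal_norm, norm_phz, ENNReal.ofReal_one]

/-- **rescaling of the Fourier transform** -/
theorem fourierInv_rs {l : ℝ} (hl : 0 < l) (a : Fin 2 → ℝ) (g : E3 → ℂ) (z : E3) :
    (𝓕⁻ g : E3 → ℂ) z = phz a z * (𝓕⁻ (rs l a g) : E3 → ℂ) (AL l a z) := by
  have hd : LinearMap.det (BL l a) ≠ 0 := by rw [det_BL]; positivity
  rw [Real.fourierInv_eq', Real.fourierInv_eq']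
  have h1 : ∫ v, cexp (((2 * Real.pi * ⟪v, z⟫ : ℝ) : ℂ) * I) • g v =
      ∫ v, cexp (((2 * Real.pi * ⟪bz a + v, z⟫ : ℝ) : ℂ) * I) • g (bz a + v) :=
    (integral_add_left_eq_self (fun v => cexp (((2 * Real.pi * ⟪v, z⟫ : ℝ) : ℂ) * I) • g v) (bz a)).symm
  have h2 := integral_lin (BL l a) hd (fun v => cexp (((2 * Real.pi * ⟪bz a + v, z⟫ : ℝ) : ℂ) * I) • g (bz a + v))
  rw [det_BL] at h2
  have h3 : ∫ v, cexp (((2 * Real.pi * ⟪bz a + v, z⟫ : ℝ) : ℂ) * I) • g (bz a + v) =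
      (l ^ 4 : ℝ) • ∫ v, cexp (((2 * Real.pi * ⟪bz a + BL l a v, z⟫ : ℝ) : ℂ) * I) • g (bz a + BL l a v) := by
    rw [h2, smul_smul, abs_of_pos (by positivity), mul_inv_cancel₀ (by positivity), one_smul]
  rw [h1, h3, ← integral_smul, ← integral_const_mul]
  congr 1
  funext v
  unfold rs phz
  rw [inner_add_left, BL_inner]
  simp only [smul_eq_mul, Complex.real_smul]
  rw [show ((2 * Real.pi * (⟪bz a, z⟫ + ⟪v, AL l a z⟫) : ℝ) : ℂ) * I =
    ((2 * Real.pi * ⟪bz a, z⟫ : ℝ) : ℂ) * I + ((2 * Real.pi * ⟪v, AL l a z⟫ : ℝ) : ℂ) * I by push_cast; ring, Complex.exp_add]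
  ring

theorem integrable_rs {l : ℝ} (hl : 0 < l) (a : Fin 2 → ℝ) {g : E3 → ℂ} (hg : Integrable g) : Integrable (rs l a g) := by
  have hd : LinearMap.det (BL l a) ≠ 0 := by rw [det_BL]; positivity
  have h1 : Integrable fun v => g (bz a + v) := hg.comp_add_left (bz a)
  exact (integrable_lin (BL l a) hd h1).smul (l ^ 4 : ℝ)

/-- change of variables in physical space, with weights -/
theorem lintegral_AL {l : ℝ} (hl : 0 < l) (a : Fin 2 → ℝ) (F : E3 → ℝ≥0∞) :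
    ∫⁻ z, F (AL l a z) = ENNReal.ofReal ((l⁻¹) ^ 4) * ∫⁻ z, F z := by
  have hd : LinearMap.det (AL l a) ≠ 0 := by rw [det_AL]; positivity
  rw [lintegral_lin (AL l a) hd, det_AL, abs_of_pos (by positivity), inv_pow]

end Vale.Agent.P076.H429
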