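import Vale.Agent.P076.NS.Defs
import Vale.Agent.P076.H429.Lin

/-! # P076 / H429 : parabolic rescaling of the class `Par` (helper429)

`D = 2 ^ n`. For a cap `τ` of level `j`, `a = slp n j τ`, the pieces `g θ`, `θ` below `τ`, are
`𝓕⁻ (g θ) z = phz a z * 𝓕⁻ (rsp K n j g τ θ') (AL D⁻ʲ a z)`, `θ = shf K n j τ θ'`, and `rsp K n j g τ` is in `Par C0 (K - j) n`. -/

set_option autoImplicit false

open MeasureTheory Complex Set Vale.Agent.P122.C2 Vale.Agent.P122.AN Vale.Agent.P076.NS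
open scoped ENNReal NNReal FourierTransform RealInnerProductSpace

namespace Vale.Agent.P076.H429

/-- the finest cap `θ'` below the cap `τ` of level `j` -/
def shf (K n j : ℕ) (τ θ' : Z2) : Z2 := fun k => 2 ^ ((K - j) * n) * τ k + θ' k

/-- the scale -/
noncomputable def sc (n j : ℕ) : ℝ := ((2:ℝ) ^ (j * n))⁻¹

lemma sc_pos (n j : ℕ) : 0 < sc n j := by unfold sc; positivity

/-- the cap `θ'` is in the range of level `K` -/
def Rng (K n : ℕ) (θ' : Z2) : Prop := ∀ k, 0 ≤ θ' k ∧ θ' k < 2 ^ (K * n)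

instance (K n : ℕ) (θ' : Z2) : Decidable (Rng K n θ') := by unfold Rng; infer_instance

/-- the rescaled pieces -/
noncomputable def rsp (K n j : ℕ) (g : Z2 → E3 → ℂ) (τ θ' : Z2) : E3 → ℂ :=
  if Rng (K - j) n θ' then rs (sc n j) (slp n j τ) (g (shf K n j τ θ')) else 0

lemma rsp_of {K n j : ℕ} {g : Z2 → E3 → ℂ} {τ θ' : Z2} (h : Rng (K - j) n θ') :
    rsp K n j g τ θ' = rs (sc n j) (slp n j τ) (g (shf K n j τ θ')) := if_pos h

lemma pow_split {K n j : ℕ} (h : j ≤ K) : (2:ℝ) ^ (K * n) = 2 ^ (j * n) * 2 ^ ((K - j) * n) := by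
  rw [← pow_add, ← add_mul, Nat.add_sub_cancel' h]

/-- **the class `Par` is stable under parabolic rescaling** -/
theorem Par_rsp {C0 : ℝ} {K n j : ℕ} {g : Z2 → E3 → ℂ} (h : Par C0 K n g) (hj : j ≤ K) (τ : Z2) :
    Par C0 (K - j) n (rsp K n j g τ) := by
  have hD : (0:ℝ) < 2 ^ (j * n) := by positivity
  have hD' : (0:ℝ) < 2 ^ ((K - j) * n) := by positivity
  have hne : ∀ θ' ξ, rsp K n j g τ θ' ξ ≠ 0 →
      Rng (K - j) n θ' ∧ g (shf K n j τ θ') (bz (slp n j τ) + BL (sc n j) (slp n j τ) ξ) ≠ 0 := by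
    intro θ' ξ hξ
    by_cases hR : Rng (K - j) n θ'
    · refine ⟨hR, fun h0 => hξ ?_⟩
      rw [rsp_of hR]; unfold rs; rw [h0, smul_zero]
    · exfalso; apply hξ; unfold rsp; rw [if_neg hR]; rfl
  refine ⟨?_, ?_, fun _ _ _ => mem_univ _, ?_, ?_⟩
  · intro θ'
    by_cases hR : Rng (K - j) n θ'
    · rw [rsp_of hR]; exact integrable_rs (sc_pos n j) _ (h.int _)
    · unfold rsp; rw [if_neg hR]; exact integrable_zero _ _ _
  · intro θ' ξ hξ k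
    exact (hne θ' ξ hξ).1 k
  · intro θ' ξ hξ k
    have h1 := h.slope _ _ (hne θ' ξ hξ).2 k
    have e : (id (hz (bz (slp n j τ) + BL (sc n j) (slp n j τ) ξ)) : Fin 2 → ℝ) k -
        ((shf K n j τ θ' k : ℤ) : ℝ) / 2 ^ (K * n) =
        sc n j * ((id (hz ξ) : Fin 2 → ℝ) k - (θ' k : ℝ) / 2 ^ ((K - j) * n)) := by
      rw [pow_split hj]
      unfold shf sc slp
      fin_cases k <;> simp [hz] <;> field_simp <;> ring
    rw [e, abs_mul, abs_of_pos (sc_pos n j), pow_split hj, ← div_div] at h1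
    unfold sc at h1
    rw [div_right_comm, inv_mul_eq_div] at h1
    rwa [div_le_div_iff_of_pos_right hD] at h1
  · intro θ' ξ hξ
    have h1 := h.near _ _ (hne θ' ξ hξ).2
    have e : (bz (slp n j τ) + BL (sc n j) (slp n j τ) ξ) 2 - hP (hz (bz (slp n j τ) + BL (sc n j) (slp n j τ) ξ)) =
        sc n j ^ 2 * (ξ 2 - hP (hz ξ)) := by
      unfold hP hz
      simp
      ring
    rw [e, abs_mul, abs_of_pos (pow_pos (sc_pos n j) 2)] at h1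
    have e2 : (2:ℝ) ^ (2 * K * n) = (2 ^ (j * n)) ^ 2 * 2 ^ (2 * (K - j) * n) := by
      rw [← pow_mul, ← pow_add]; congr 1
      obtain ⟨d, rfl⟩ := Nat.exists_eq_add_of_le hj
      rw [Nat.add_sub_cancel_left]; ring
    rw [e2, ← div_div, div_right_comm] at h1
    unfold sc at h1
    rw [inv_pow, inv_mul_eq_div] at h1
    rwa [div_le_div_iff_of_pos_right (pow_pos hD 2)] at h1

/-- **the pieces** -/
theorem inv_rsp {K n j : ℕ} {g : Z2 → E3 → ℂ} {τ θ' : Z2} (h : Rng (K - j) n θ') (z : E3) :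
    (𝓕⁻ (g (shf K n j τ θ')) : E3 → ℂ) z =
      phz (slp n j τ) z * (𝓕⁻ (rsp K n j g τ θ') : E3 → ℂ) (AL (sc n j) (slp n j τ) z) := by
  rw [rsp_of h, ← fourierInv_rs (sc_pos n j)]

/-- sums of pieces over sets of finest caps below `τ` -/
theorem sum_rsp {K n j : ℕ} {g : Z2 → E3 → ℂ} {τ : Z2} {G : Finset Z2} (h : ∀ θ' ∈ G, Rng (K - j) n θ') (z : E3) :
    ∑ θ' ∈ G, (𝓕⁻ (g (shf K n j τ θ')) : E3 → ℂ) z =
      phz (slp n j τ) z * ∑ θ' ∈ G, (𝓕⁻ (rsp K n j g τ θ') : E3 → ℂ) (AL (sc n j) (slp n j τ) z) := by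
  rw [Finset.mul_sum]
  exact Finset.sum_congr rfl fun θ' hθ => inv_rsp (h θ' hθ) z

lemma shf_inj (K n j : ℕ) (τ : Z2) : Function.Injective (shf K n j τ) := by
  intro a b h
  funext k
  have := congrFun h k
  simpa [shf] using this

/-- descendants -/
lemma mem_desc {K n i : ℕ} {τ θ : Z2} :
    θ ∈ desc K n i τ ↔ ∀ k, 2 ^ ((K - i) * n) * τ k ≤ θ k ∧ θ k < 2 ^ ((K - i) * n) * (τ k + 1) := by
  unfold desc; simp [Fintype.mem_piFinset]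

lemma desc_zero_iff {K n : ℕ} {θ : Z2} : θ ∈ desc K n 0 0 ↔ Rng K n θ := by
  rw [mem_desc]; unfold Rng; simp

lemma shf_mem_desc {K n j i : ℕ} (hji : j + i ≤ K) {τ σ θ' : Z2} :
    shf K n j τ θ' ∈ desc K n (j + i) (fun k => 2 ^ (i * n) * τ k + σ k) ↔ θ' ∈ desc (K - j) n i σ := by
  rw [mem_desc, mem_desc]
  have e : (2:ℤ) ^ ((K - j) * n) = 2 ^ ((K - (j + i)) * n) * 2 ^ (i * n) := by
    rw [← pow_add, ← add_mul]; congr 2; omega
  have e2 : K - j - i = K - (j + i) := by omega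
  refine forall_congr' fun k => ?_
  unfold shf
  rw [e, e2]
  constructor
  · rintro ⟨h1, h2⟩; constructor <;> nlinarith
  · rintro ⟨h1, h2⟩; constructor <;> nlinarith

lemma Rng_of_desc {K n i : ℕ} (hi : i ≤ K) {σ θ' : Z2} (hσ : Cap n i σ) (h : θ' ∈ desc K n i σ) : Rng K n θ' := by
  rw [mem_desc] at h
  intro k
  obtain ⟨h1, h2⟩ := h k
  obtain ⟨h3, h4⟩ := hσ k
  have e : (2:ℤ) ^ (K * n) = 2 ^ ((K - i) * n) * 2 ^ (i * n) := by
    rw [← pow_add, ← add_mul, Nat.sub_add_cancel hi]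
  have hp : (0:ℤ) < 2 ^ ((K - i) * n) := by positivity
  constructor
  · exact le_trans (mul_nonneg hp.le h3) h1
  · rw [e]
    exact lt_of_lt_of_le h2 (mul_le_mul_of_nonneg_left (by omega) hp.le)

lemma desc_shf {K n j i : ℕ} (hji : j + i ≤ K) (τ σ : Z2) :
    desc K n (j + i) (fun k => 2 ^ (i * n) * τ k + σ k) = (desc (K - j) n i σ).image (shf K n j τ) := by
  ext θ
  rw [Finset.mem_image]
  constructor
  · intro h
    refine ⟨fun k => θ k - 2 ^ ((K - j) * n) * τ k, ?_, ?_⟩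
    · rw [← shf_mem_desc hji (τ := τ)]
      convert h using 1
      funext k; unfold shf; ring
    · funext k; unfold shf; ring
  · rintro ⟨θ', h', rfl⟩
    exact (shf_mem_desc hji).2 h'

/-- **the piece of a cap of level `j + i` below `τ`** -/
theorem pie_rsp {K n j i : ℕ} (hji : j + i ≤ K) {g : Z2 → E3 → ℂ} {τ σ : Z2} (hσ : Cap n i σ) (z : E3) :
    pie K n g (j + i) (fun k => 2 ^ (i * n) * τ k + σ k) z =
      phz (slp n j τ) z * pie (K - j) n (rsp K n j g τ) i σ (AL (sc n j) (slp n j τ) z) := by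
  unfold pie
  rw [desc_shf hji, Finset.sum_image fun a _ b _ h => shf_inj K n j τ h]
  exact sum_rsp (fun θ' hθ => Rng_of_desc (by omega) hσ hθ) z

/-- the piece of the cap `τ` itself -/
theorem pie_rsp_self {K n j : ℕ} (hj : j ≤ K) {g : Z2 → E3 → ℂ} (τ : Z2) (z : E3) :
    pie K n g j τ z = phz (slp n j τ) z * pie (K - j) n (rsp K n j g τ) 0 0 (AL (sc n j) (slp n j τ) z) := by
  have h := pie_rsp (n := n) (i := 0) (j := j) (by omega : j + 0 ≤ K) (g := g) (τ := τ) (σ := 0) (fun k => by simp) z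
  have e : (fun k => 2 ^ (0 * n) * τ k + (0 : Z2) k) = τ := by funext k; simp
  rw [e] at h
  exact h

theorem enorm_pie_rsp_self {K n j : ℕ} (hj : j ≤ K) {g : Z2 → E3 → ℂ} (τ : Z2) (z : E3) :
    ‖pie K n g j τ z‖ₑ = ‖pie (K - j) n (rsp K n j g τ) 0 0 (AL (sc n j) (slp n j τ) z)‖ₑ := by
  rw [pie_rsp_self hj, enorm_mul, enorm_phz, one_mul]

/-! ## weights -/

lemma dv_AL (l : ℝ) (a s' : Fin 2 → ℝ) (z : E3) : dv s' (AL l a z) = fun k => l * dv (fun i => a i + l * s' i) z k := by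
  funext k; unfold dv; fin_cases k <;> simp <;> ring

lemma fw_smul (θ l : ℝ) (v : Fin 2 → ℝ) : fw θ (fun k => l * v k) = l * fw θ v := by unfold fw; ring

lemma fn_smul (θ l : ℝ) (v : Fin 2 → ℝ) : fn θ (fun k => l * v k) = l * fn θ v := by unfold fn; ring

/-- the gauge of the rescaled box -/
theorem gau_AL {l : ℝ} (hl : 0 < l) (a : Fin 2 → ℝ) (θ ρ1 ρ2 ρ3 : ℝ) (s' : Fin 2 → ℝ) (z : E3) :
    gau θ (l * ρ1) (l * ρ2) (l ^ 2 * ρ3) s' (AL l a z) = gau θ ρ1 ρ2 ρ3 (fun i => a i + l * s' i) z := by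
  unfold gau
  rw [dv_AL, fw_smul, fn_smul, AL_two, abs_mul, abs_mul, abs_mul, abs_of_pos hl, abs_of_pos (pow_pos hl 2),
    mul_div_mul_left _ _ hl.ne', mul_div_mul_left _ _ hl.ne', mul_div_mul_left _ _ (pow_pos hl 2).ne']

/-- the weight of the rescaled box -/
theorem wg_AL {l : ℝ} (hl : 0 < l) (a : Fin 2 → ℝ) (M : ℕ) (θ ρ1 ρ2 ρ3 : ℝ) (s' : Fin 2 → ℝ) (z : E3) :
    wg M θ (l * ρ1) (l * ρ2) (l ^ 2 * ρ3) s' (AL l a z) = wg M θ ρ1 ρ2 ρ3 (fun i => a i + l * s' i) z := by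
  unfold wg; rw [gau_AL hl]

/-- **weighted integrals of powers**: `∫ Φ(F(A z)) w(z - c) dz`, `w` a box of slope `a + l s'` -/
theorem lintegral_wg_AL {l : ℝ} (hl : 0 < l) (a : Fin 2 → ℝ) (M : ℕ) (θ ρ1 ρ2 ρ3 : ℝ) (s' : Fin 2 → ℝ) (c : E3)
    (F : E3 → ℝ≥0∞) :
    ∫⁻ z, F (AL l a z) * wg M θ ρ1 ρ2 ρ3 (fun i => a i + l * s' i) (z - c) =
      ENNReal.ofReal ((l⁻¹) ^ 4) * ∫⁻ z, F z * wg M θ (l * ρ1) (l * ρ2) (l ^ 2 * ρ3) s' (z - AL l a c) := by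
  rw [← lintegral_AL hl a fun z => F z * wg M θ (l * ρ1) (l * ρ2) (l ^ 2 * ρ3) s' (z - AL l a c)]
  congr 1
  funext z
  rw [← wg_AL hl, map_sub]

/-- slopes -/
lemma slp_shf {K n j : ℕ} (hj : j ≤ K) (τ θ' : Z2) :
    slp n K (shf K n j τ θ') = fun i => slp n j τ i + sc n j * slp n (K - j) θ' i := by
  funext i
  unfold slp shf sc
  rw [pow_split hj]
  have h1 : (0:ℝ) < 2 ^ (j * n) := by positivity
  have h2 : (0:ℝ) < 2 ^ ((K - j) * n) := by positivity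
  push_cast
  field_simp

/-- energy of a finest piece on a finest tube through the point `c` -/
noncomputable def eT (M K n : ℕ) (g : Z2 → E3 → ℂ) (θ : Z2) (c : E3) : ℝ≥0∞ :=
  ENNReal.ofReal (((2:ℝ) ^ (4 * K * n))⁻¹) *
    ∫⁻ z, ‖(𝓕⁻ (g θ) : E3 → ℂ) z‖ₑ ^ 2 * wg M 0 (2 ^ (K * n)) (2 ^ (K * n)) (2 ^ (2 * K * n)) (slp n K θ) (z - c)

theorem uB_eq (M K n : ℕ) (g : Z2 → E3 → ℂ) (G : Finset Z2) (B : Fin 3 → ℤ) :
    uB M K n g G B = ∑ τ ∈ G, ∑ θ ∈ desc K n 1 τ, eT M K n g θ (cB n B) := rfl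

lemma two_pow_split {K n j : ℕ} (hj : j ≤ K) (q : ℕ) :
    (2:ℝ) ^ (q * K * n) = (2 ^ (j * n)) ^ q * 2 ^ (q * (K - j) * n) := by
  rw [← pow_mul, ← pow_add]; congr 1
  obtain ⟨d, rfl⟩ := Nat.exists_eq_add_of_le hj
  rw [Nat.add_sub_cancel_left]; ring

/-- **the energies of the finest tubes are invariant** -/
theorem eT_rsp {M K n j : ℕ} (hj : j ≤ K) (g : Z2 → E3 → ℂ) {τ θ' : Z2} (h : Rng (K - j) n θ') (c : E3) :
    eT M K n g (shf K n j τ θ') c = eT M (K - j) n (rsp K n j g τ) θ' (AL (sc n j) (slp n j τ) c) := by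
  have hl := sc_pos n j
  have hD : (0:ℝ) < 2 ^ (j * n) := by positivity
  unfold eT
  have e0 : ∀ z, ‖(𝓕⁻ (g (shf K n j τ θ')) : E3 → ℂ) z‖ₑ ^ 2 =
      (fun w => ‖(𝓕⁻ (rsp K n j g τ θ') : E3 → ℂ) w‖ₑ ^ 2) (AL (sc n j) (slp n j τ) z) := by
    intro z; simp only; rw [inv_rsp h, enorm_mul, enorm_phz, one_mul]
  simp_rw [e0]
  rw [slp_shf hj, lintegral_wg_AL hl (slp n j τ) M 0 (2 ^ (K * n)) (2 ^ (K * n)) (2 ^ (2 * K * n)) (slp n (K - j) θ') c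
    (fun w => ‖(𝓕⁻ (rsp K n j g τ θ') : E3 → ℂ) w‖ₑ ^ 2), ← mul_assoc, ← ENNReal.ofReal_mul (by positivity)]
  have e1 : sc n j * (2:ℝ) ^ (K * n) = 2 ^ ((K - j) * n) := by
    rw [pow_split hj]; unfold sc; field_simp
  have e2 : sc n j ^ 2 * (2:ℝ) ^ (2 * K * n) = 2 ^ (2 * (K - j) * n) := by
    rw [two_pow_split hj 2]; unfold sc; field_simp
  have e3 : ((2:ℝ) ^ (4 * K * n))⁻¹ * (sc n j)⁻¹ ^ 4 = (2 ^ (4 * (K - j) * n))⁻¹ := by
    rw [two_pow_split hj 4]; unfold sc; field_simp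
  rw [e1, e2, e3]

/-- **masses**: `R⁻¹ ∫ |F_θ|² = D^(2j) R'⁻¹ ∫ |F'_θ'|²` -/
theorem mass_rsp {K n j : ℕ} (hj : j ≤ K) (g : Z2 → E3 → ℂ) {τ θ' : Z2} (h : Rng (K - j) n θ') :
    ENNReal.ofReal (((2:ℝ) ^ (2 * K * n))⁻¹) * ∫⁻ z, ‖(𝓕⁻ (g (shf K n j τ θ')) : E3 → ℂ) z‖ₑ ^ 2 =
      ENNReal.ofReal ((2:ℝ) ^ (2 * j * n)) * (ENNReal.ofReal (((2:ℝ) ^ (2 * (K - j) * n))⁻¹) *
        ∫⁻ z, ‖(𝓕⁻ (rsp K n j g τ θ') : E3 → ℂ) z‖ₑ ^ 2) := by
  have hl := sc_pos n j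
  have hD : (0:ℝ) < 2 ^ (j * n) := by positivity
  have e0 : ∀ z, ‖(𝓕⁻ (g (shf K n j τ θ')) : E3 → ℂ) z‖ₑ ^ 2 =
      (fun w => ‖(𝓕⁻ (rsp K n j g τ θ') : E3 → ℂ) w‖ₑ ^ 2) (AL (sc n j) (slp n j τ) z) := by
    intro z; simp only; rw [inv_rsp h, enorm_mul, enorm_phz, one_mul]
  simp_rw [e0]
  rw [lintegral_AL hl (slp n j τ) (fun w => ‖(𝓕⁻ (rsp K n j g τ θ') : E3 → ℂ) w‖ₑ ^ 2), ← mul_assoc, ← mul_assoc,
    ← ENNReal.ofReal_mul (by positivity), ← ENNReal.ofReal_mul (by positivity)]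
  congr 2
  have e4 : (2:ℝ) ^ (2 * j * n) = (2 ^ (j * n)) ^ 2 := by rw [← pow_mul]; congr 1; ring
  rw [two_pow_split hj 2, e4]
  unfold sc
  generalize (2:ℝ) ^ (j * n) = D at hD ⊢
  field_simp

/-- the mass of the rescaled function -/
theorem ms_rsp {K n j : ℕ} (hj : j ≤ K) (g : Z2 → E3 → ℂ) (τ : Z2) :
    ENNReal.ofReal (((2:ℝ) ^ (2 * K * n))⁻¹) * ∑ θ ∈ desc K n j τ, ∫⁻ z, ‖(𝓕⁻ (g θ) : E3 → ℂ) z‖ₑ ^ 2 =
      ENNReal.ofReal ((2:ℝ) ^ (2 * j * n)) * ms (K - j) n (rsp K n j g τ) := by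
  have e : desc K n j τ = (desc (K - j) n 0 0).image (shf K n j τ) := by
    have := desc_shf (K := K) (n := n) (j := j) (i := 0) (by omega) τ 0
    rw [← this]; congr 1; funext k; simp
  unfold ms
  rw [e, Finset.sum_image fun a _ b _ h => shf_inj K n j τ h, Finset.mul_sum, Finset.mul_sum, Finset.mul_sum]
  exact Finset.sum_congr rfl fun θ' hθ => mass_rsp hj g (desc_zero_iff.1 hθ)

end Vale.Agent.P076.H429
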