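import Vale.Agent.P076.H429.Resc

/-! # P076 / H429 : the rescaling in the form used by the induction (helper429)

General level `j` (names `..J`), and level `1` (`rs`, `Amap`). -/

set_option autoImplicit false

open MeasureTheory Complex Set Vale.Agent.P122.C2 Vale.Agent.P122.AN Vale.Agent.P076.NS
open scoped ENNReal NNReal FourierTransform RealInnerProductSpace

namespace Vale.Agent.P076.H429

/-! ## inverse maps -/

/-- explicit inverse of `AL` -/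
noncomputable def ALi (l : ℝ) (a : Fin 2 → ℝ) : E3 →ₗ[ℝ] E3 where
  toFun w := !₂[l⁻¹ * w 0 + a 0 * ((l⁻¹) ^ 2 * w 2), l⁻¹ * w 1 + a 1 * ((l⁻¹) ^ 2 * w 2), (l⁻¹) ^ 2 * w 2]
  map_add' x y := by
    ext i; fin_cases i <;> simp <;> ring
  map_smul' c x := by
    ext i; fin_cases i <;> simp <;> ring

@[simp] lemma ALi_zero (l : ℝ) (a : Fin 2 → ℝ) (w : E3) : ALi l a w 0 = l⁻¹ * w 0 + a 0 * ((l⁻¹) ^ 2 * w 2) := rfl
@[simp] lemma ALi_one (l : ℝ) (a : Fin 2 → ℝ) (w : E3) : ALi l a w 1 = l⁻¹ * w 1 + a 1 * ((l⁻¹) ^ 2 * w 2) := rfl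
@[simp] lemma ALi_two (l : ℝ) (a : Fin 2 → ℝ) (w : E3) : ALi l a w 2 = (l⁻¹) ^ 2 * w 2 := rfl

lemma AL_ALi {l : ℝ} (hl : 0 < l) (a : Fin 2 → ℝ) (w : E3) : AL l a (ALi l a w) = w := by
  ext i; fin_cases i <;> simp <;> field_simp

lemma ALi_AL {l : ℝ} (hl : 0 < l) (a : Fin 2 → ℝ) (z : E3) : ALi l a (AL l a z) = z := by
  ext i; fin_cases i <;> simp <;> field_simp <;> ring

/-! ## level `j` -/

/-- **(2)** sums over sets of finest caps below `τ` -/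
theorem sumJ {K n j : ℕ} (hj : j ≤ K) (g : Z2 → E3 → ℂ) (τ : Z2) (G : Finset Z2) (hG : G ⊆ desc K n j τ) (z : E3) :
    ∑ θ ∈ G, (𝓕⁻ (g θ) : E3 → ℂ) z = phz (slp n j τ) z *
      ∑ θ' ∈ G.image (fun θ k => θ k - 2 ^ ((K - j) * n) * τ k),
        (𝓕⁻ (rsp K n j g τ θ') : E3 → ℂ) (AL (sc n j) (slp n j τ) z) := by
  have e : G = (G.image (fun θ k => θ k - 2 ^ ((K - j) * n) * τ k)).image (shf K n j τ) := by
    rw [Finset.image_image]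
    conv_lhs => rw [← Finset.image_id (s := G)]
    apply Finset.image_congr
    intro θ _
    funext k; simp [shf]
  have hR : ∀ θ' ∈ G.image (fun θ k => θ k - 2 ^ ((K - j) * n) * τ k), Rng (K - j) n θ' := by
    intro θ' hθ'
    obtain ⟨θ, hθ, rfl⟩ := Finset.mem_image.1 hθ'
    intro k
    have := mem_desc.1 (hG hθ) k
    constructor
    · linarith [this.1]
    · linarith [this.2]
  conv_lhs => rw [e]
  rw [Finset.sum_image fun a _ b _ h => shf_inj K n j τ h]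
  exact sum_rsp hR z

theorem enorm_sumJ {K n j : ℕ} (hj : j ≤ K) (g : Z2 → E3 → ℂ) (τ : Z2) (G : Finset Z2) (hG : G ⊆ desc K n j τ) (z : E3) :
    ‖∑ θ ∈ G, (𝓕⁻ (g θ) : E3 → ℂ) z‖ₑ =
      ‖∑ θ' ∈ G.image (fun θ k => θ k - 2 ^ ((K - j) * n) * τ k),
        (𝓕⁻ (rsp K n j g τ θ') : E3 → ℂ) (AL (sc n j) (slp n j τ) z)‖ₑ := by
  rw [sumJ hj g τ G hG z, enorm_mul, enorm_phz, one_mul]

/-- single pieces -/
theorem enormJ {K n j : ℕ} (g : Z2 → E3 → ℂ) (τ θ : Z2) (hθ : θ ∈ desc K n j τ) (z : E3) :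
    ‖(𝓕⁻ (g θ) : E3 → ℂ) z‖ₑ =
      ‖(𝓕⁻ (rsp K n j g τ fun k => θ k - 2 ^ ((K - j) * n) * τ k) : E3 → ℂ) (AL (sc n j) (slp n j τ) z)‖ₑ := by
  have hR : Rng (K - j) n (fun k => θ k - 2 ^ ((K - j) * n) * τ k) := by
    intro k
    have := mem_desc.1 hθ k
    constructor
    · linarith [this.1]
    · linarith [this.2]
  have h := inv_rsp (g := g) (τ := τ) hR z
  have e : shf K n j τ (fun k => θ k - 2 ^ ((K - j) * n) * τ k) = θ := by funext k; simp [shf]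
  rw [e] at h
  rw [h, enorm_mul, enorm_phz, one_mul]

/-- **(3)** change of variables -/
theorem lintegralJ (n j : ℕ) (a : Fin 2 → ℝ) (f : E3 → ℝ≥0∞) :
    ∫⁻ z, f (AL (sc n j) a z) = ENNReal.ofReal ((2:ℝ) ^ (4 * j * n)) * ∫⁻ z, f z := by
  rw [lintegral_AL (sc_pos n j) a f]
  congr 2
  unfold sc
  rw [inv_inv, ← pow_mul]
  congr 1; ring

/-- **(4)** the gauge of a box of slope `s` -/
theorem gauJ (n j : ℕ) (τ : Z2) (θ r1 r2 r3 : ℝ) (s : Fin 2 → ℝ) (z : E3) :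
    gau θ r1 r2 r3 (fun i => 2 ^ (j * n) * s i - τ i) (AL (sc n j) (slp n j τ) z) =
      gau θ (2 ^ (j * n) * r1) (2 ^ (j * n) * r2) (2 ^ (2 * j * n) * r3) s z := by
  have hD : (0:ℝ) < 2 ^ (j * n) := by positivity
  have h := gau_AL (sc_pos n j) (slp n j τ) θ (2 ^ (j * n) * r1) (2 ^ (j * n) * r2) (2 ^ (2 * j * n) * r3)
    (fun i => 2 ^ (j * n) * s i - τ i) z
  have e1 : ∀ r : ℝ, sc n j * (2 ^ (j * n) * r) = r := by intro r; unfold sc; field_simp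
  have e2 : ∀ r : ℝ, sc n j ^ 2 * (2 ^ (2 * j * n) * r) = r := by
    intro r
    have : (2:ℝ) ^ (2 * j * n) = (2 ^ (j * n)) ^ 2 := by rw [← pow_mul]; congr 1; ring
    rw [this]; unfold sc; field_simp
  have e3 : (fun i => slp n j τ i + sc n j * (2 ^ (j * n) * s i - τ i)) = s := by
    funext i; unfold slp sc; field_simp; ring
  rw [e1, e1, e2, e3] at h
  exact h

theorem wgJ (M n j : ℕ) (τ : Z2) (θ r1 r2 r3 : ℝ) (s : Fin 2 → ℝ) (z : E3) :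
    wg M θ r1 r2 r3 (fun i => 2 ^ (j * n) * s i - τ i) (AL (sc n j) (slp n j τ) z) =
      wg M θ (2 ^ (j * n) * r1) (2 ^ (j * n) * r2) (2 ^ (2 * j * n) * r3) s z := by
  unfold wg; rw [gauJ]

/-- **(4')** weighted integrals -/
theorem lintegral_wgJ (M n j : ℕ) (τ : Z2) (θ r1 r2 r3 : ℝ) (s : Fin 2 → ℝ) (c : E3) (f : E3 → ℝ≥0∞) :
    ∫⁻ z, f (AL (sc n j) (slp n j τ) z) *
        wg M θ (2 ^ (j * n) * r1) (2 ^ (j * n) * r2) (2 ^ (2 * j * n) * r3) s (z - c) =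
      ENNReal.ofReal ((2:ℝ) ^ (4 * j * n)) *
        ∫⁻ z, f z * wg M θ r1 r2 r3 (fun i => 2 ^ (j * n) * s i - τ i) (z - AL (sc n j) (slp n j τ) c) := by
  rw [← lintegralJ n j (slp n j τ)
    fun z => f z * wg M θ r1 r2 r3 (fun i => 2 ^ (j * n) * s i - τ i) (z - AL (sc n j) (slp n j τ) c)]
  congr 1
  funext z
  rw [← wgJ, map_sub]

/-- the caps of level `j` -/
theorem mem_capsJ {j n : ℕ} {τ : Z2} : τ ∈ desc j n 0 0 ↔ Cap n j τ := by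
  rw [desc_zero_iff]; rfl

/-- decomposition of the finest caps -/
theorem desc_biUnion {K n j : ℕ} (hj : j ≤ K) :
    desc K n 0 0 = (desc j n 0 0).biUnion fun τ => desc K n j τ := by
  have e : (2:ℤ) ^ (K * n) = 2 ^ ((K - j) * n) * 2 ^ (j * n) := by
    rw [← pow_add, ← add_mul, Nat.sub_add_cancel hj]
  have hp : (0:ℤ) < 2 ^ ((K - j) * n) := by positivity
  ext θ
  simp only [Finset.mem_biUnion, desc_zero_iff]
  constructor
  · intro h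
    refine ⟨fun k => θ k / 2 ^ ((K - j) * n), fun k => ?_, mem_desc.2 fun k => ?_⟩
    · obtain ⟨h1, h2⟩ := h k
      exact ⟨Int.ediv_nonneg h1 hp.le, Int.ediv_lt_of_lt_mul hp (by rw [mul_comm]; rw [e] at h2; exact h2)⟩
    · have h1 := Int.mul_ediv_add_emod (θ k) (2 ^ ((K - j) * n))
      have h2 := Int.emod_nonneg (θ k) hp.ne'
      have h3 := Int.emod_lt_of_pos (θ k) hp
      constructor
      · linarith
      · linarith
  · rintro ⟨τ, hτ, h⟩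
    exact Rng_of_desc hj (fun k => hτ k) h

theorem desc_disj {K n j : ℕ} {τ τ' : Z2} (h : τ ≠ τ') : Disjoint (desc K n j τ) (desc K n j τ') := by
  rw [Finset.disjoint_left]
  intro θ h1 h2
  apply h
  have hp : (0:ℤ) < 2 ^ ((K - j) * n) := by positivity
  funext k
  obtain ⟨a1, a2⟩ := mem_desc.1 h1 k
  obtain ⟨b1, b2⟩ := mem_desc.1 h2 k
  have c1 : τ k < τ' k + 1 := lt_of_mul_lt_mul_left (lt_of_le_of_lt a1 b2) hp.le
  have c2 : τ' k < τ k + 1 := lt_of_mul_lt_mul_left (lt_of_le_of_lt b1 a2) hp.le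
  omega

/-- **(5)** sum of the masses -/
theorem sum_msJ {K n j : ℕ} (hj : j ≤ K) (g : Z2 → E3 → ℂ) :
    ∑ τ ∈ desc j n 0 0, ms (K - j) n (rsp K n j g τ) = ENNReal.ofReal (((2:ℝ) ^ (2 * j * n))⁻¹) * ms K n g := by
  have h : ms K n g = ENNReal.ofReal ((2:ℝ) ^ (2 * j * n)) * ∑ τ ∈ desc j n 0 0, ms (K - j) n (rsp K n j g τ) := by
    rw [Finset.mul_sum, ← Finset.sum_congr rfl fun τ _ => ms_rsp hj g τ, ← Finset.mul_sum]
    unfold ms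
    rw [desc_biUnion hj, Finset.sum_biUnion fun τ _ τ' _ h => desc_disj h]
  rw [h, ← mul_assoc, ← ENNReal.ofReal_mul (by positivity), inv_mul_cancel₀ (by positivity), ENNReal.ofReal_one, one_mul]

/-! ## level `1` -/

/-- the rescaled pieces of the cap `τ` of level `1` -/
noncomputable def rs1 (k n : ℕ) (τ : Z2) (g : Z2 → E3 → ℂ) : Z2 → E3 → ℂ := rsp k n 1 g τ

/-- `A z = ((z' - a z₂) / D, z₂ / D²)` -/
noncomputable def Amap (n : ℕ) (τ : Z2) : E3 →ₗ[ℝ] E3 := AL (sc n 1) (slp n 1 τ)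

/-- inverse of `Amap` -/
noncomputable def Ainv (n : ℕ) (τ : Z2) : E3 →ₗ[ℝ] E3 := ALi (sc n 1) (slp n 1 τ)

lemma Amap_zero (n : ℕ) (τ : Z2) (z : E3) : Amap n τ z 0 = (z 0 - τ 0 / 2 ^ n * z 2) / 2 ^ n := by
  unfold Amap; rw [AL_zero]; unfold sc slp; rw [one_mul]; field_simp

lemma Amap_one (n : ℕ) (τ : Z2) (z : E3) : Amap n τ z 1 = (z 1 - τ 1 / 2 ^ n * z 2) / 2 ^ n := by
  unfold Amap; rw [AL_one]; unfold sc slp; rw [one_mul]; field_simp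

lemma Amap_two (n : ℕ) (τ : Z2) (z : E3) : Amap n τ z 2 = z 2 / 2 ^ (2 * n) := by
  unfold Amap; rw [AL_two]; unfold sc; rw [one_mul, pow_mul', inv_pow]; field_simp

lemma Ainv_zero (n : ℕ) (τ : Z2) (w : E3) : Ainv n τ w 0 = 2 ^ n * w 0 + τ 0 / 2 ^ n * (2 ^ (2 * n) * w 2) := by
  unfold Ainv; rw [ALi_zero]; unfold sc slp; rw [one_mul, inv_inv, pow_mul']

lemma Ainv_one (n : ℕ) (τ : Z2) (w : E3) : Ainv n τ w 1 = 2 ^ n * w 1 + τ 1 / 2 ^ n * (2 ^ (2 * n) * w 2) := by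
  unfold Ainv; rw [ALi_one]; unfold sc slp; rw [one_mul, inv_inv, pow_mul']

lemma Ainv_two (n : ℕ) (τ : Z2) (w : E3) : Ainv n τ w 2 = 2 ^ (2 * n) * w 2 := by
  unfold Ainv; rw [ALi_two]; unfold sc; rw [one_mul, inv_inv, pow_mul']

lemma Amap_Ainv (n : ℕ) (τ : Z2) (w : E3) : Amap n τ (Ainv n τ w) = w := AL_ALi (sc_pos n 1) _ w

lemma Ainv_Amap (n : ℕ) (τ : Z2) (z : E3) : Ainv n τ (Amap n τ z) = z := ALi_AL (sc_pos n 1) _ z

/-- **(1)** -/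
theorem Par_rs1 {C0 : ℝ} {k n : ℕ} {g : Z2 → E3 → ℂ} (h : Par C0 k n g) (hk : 1 ≤ k) (τ : Z2) :
    Par C0 (k - 1) n (rs1 k n τ g) := Par_rsp h hk τ

/-- **(2)** -/
theorem enorm_rs1 {k n : ℕ} (hk : 1 ≤ k) (g : Z2 → E3 → ℂ) (τ : Z2) (G : Finset Z2) (hG : G ⊆ desc k n 1 τ) (z : E3) :
    ‖∑ θ ∈ G, (𝓕⁻ (g θ) : E3 → ℂ) z‖ₑ = ‖∑ θ' ∈ G.image (fun θ i => θ i - 2 ^ ((k - 1) * n) * τ i),
      (𝓕⁻ (rs1 k n τ g θ') : E3 → ℂ) (Amap n τ z)‖ₑ := enorm_sumJ hk g τ G hG z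

/-- **(3)** -/
theorem lintegral_Amap (n : ℕ) (τ : Z2) (f : E3 → ℝ≥0∞) :
    ∫⁻ z, f (Amap n τ z) = ENNReal.ofReal ((2:ℝ) ^ (4 * n)) * ∫⁻ z, f z := by
  have := lintegralJ n 1 (slp n 1 τ) f
  rwa [mul_one] at this

/-- **(4)** -/
theorem gau_Amap (n : ℕ) (τ : Z2) (θ r1 r2 r3 : ℝ) (s : Fin 2 → ℝ) (z : E3) :
    gau θ r1 r2 r3 (fun i => 2 ^ n * s i - τ i) (Amap n τ z) = gau θ (2 ^ n * r1) (2 ^ n * r2) (2 ^ (2 * n) * r3) s z := by
  have := gauJ n 1 τ θ r1 r2 r3 s z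
  rwa [one_mul, mul_one] at this

theorem wg_Amap (M n : ℕ) (τ : Z2) (θ r1 r2 r3 : ℝ) (s : Fin 2 → ℝ) (z : E3) :
    wg M θ r1 r2 r3 (fun i => 2 ^ n * s i - τ i) (Amap n τ z) =
      wg M θ (2 ^ n * r1) (2 ^ n * r2) (2 ^ (2 * n) * r3) s z := by unfold wg; rw [gau_Amap]

theorem kids_zero (n : ℕ) : kids n 0 = desc 1 n 0 0 := by
  ext τ; unfold kids desc; simp [Fintype.mem_piFinset]

/-- **(5)** -/
theorem sum_ms1 {k n : ℕ} (hk : 1 ≤ k) (g : Z2 → E3 → ℂ) :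
    ∑ τ ∈ kids n 0, ms (k - 1) n (rs1 k n τ g) = ENNReal.ofReal (((2:ℝ) ^ (2 * n))⁻¹) * ms k n g := by
  rw [kids_zero]
  have := sum_msJ (n := n) hk g
  rwa [mul_one] at this

end Vale.Agent.P076.H429
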