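import Mathlib

/-! # P076 / H429 : the final assembly of the thick slab, abstract form (helper429)

`bk` : block of the point (`T × T` blocks of the `(x, t)`-plane), `e1 e2` : local energies of the two pieces. -/

set_option autoImplicit false

open Finset

namespace Vale.Agent.P076.H429

variable {ι κ : Type*}

/-- one point in each block -/
theorem sel [DecidableEq κ] (B : Finset ι) (bk : ι → κ) :
    ∃ P ⊆ B, Set.InjOn bk P ∧ (B.image bk).card = P.card := by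
  classical
  rcases B.eq_empty_or_nonempty with rfl | ⟨i0, hi0⟩
  · exact ⟨∅, Finset.Subset.refl _, by simp, by simp⟩
  have : Nonempty ι := ⟨i0⟩
  have h : ∀ b ∈ B.image bk, ∃ i ∈ B, bk i = b := fun b hb => Finset.mem_image.1 hb
  choose! f hf using h
  refine ⟨(B.image bk).image f, ?_, ?_, ?_⟩
  · intro i hi
    obtain ⟨b, hb, rfl⟩ := Finset.mem_image.1 hi
    exact (hf b hb).1
  · intro i hi j hj e
    obtain ⟨b, hb, rfl⟩ := Finset.mem_image.1 (Finset.mem_coe.1 hi)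
    obtain ⟨c, hc, rfl⟩ := Finset.mem_image.1 (Finset.mem_coe.1 hj)
    rw [(hf b hb).2, (hf c hc).2] at e
    rw [e]
  · symm
    refine Finset.card_image_of_injOn ?_
    intro b hb c hc e
    have h1 := (hf b (Finset.mem_coe.1 hb)).2
    have h2 := (hf c (Finset.mem_coe.1 hc)).2
    rw [← h1, ← h2, e]

theorem card_le_blocks [DecidableEq κ] (B : Finset ι) (bk : ι → κ) {D : ℝ}
    (h : ∀ b, ((B.filter fun i => bk i = b).card : ℝ) ≤ D) : (B.card : ℝ) ≤ D * (B.image bk).card := by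
  have h1 := Finset.card_eq_sum_card_image bk B
  have h2 : (B.card : ℝ) = ∑ b ∈ B.image bk, ((B.filter fun i => bk i = b).card : ℝ) := by
    exact_mod_cast h1
  rw [h2]
  refine (Finset.sum_le_card_nsmul _ _ D fun b _ => h b).trans (le_of_eq ?_)
  rw [nsmul_eq_mul, mul_comm]

/-- blocks: a set `B` with many points has many blocks, one point in each -/
theorem sel_card [DecidableEq κ] {A B : Finset ι} (hB : B ⊆ A) (bk : ι → κ) {D : ℝ}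
    (h : ∀ b, ((A.filter fun i => bk i = b).card : ℝ) ≤ D) :
    ∃ P ⊆ B, Set.InjOn bk P ∧ (B.card : ℝ) ≤ D * P.card := by
  obtain ⟨P, h1, h2, h3⟩ := sel B bk
  refine ⟨P, h1, h2, ?_⟩
  rw [← h3]
  refine card_le_blocks B bk fun b => (le_trans ?_ (h b))
  exact_mod_cast Finset.card_le_card (Finset.filter_subset_filter _ hB)

/-- the critical density factor `(g / L) ^ (1/3)`, `L = R ^ (1/2)` -/
noncomputable def kg (g R : ℝ) : ℝ := g ^ (1 / 3 : ℝ) * R ^ (-1 / 6 : ℝ)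

theorem kg_pos {g R : ℝ} (hg : 0 < g) (hR : 0 < R) : 0 < kg g R :=
  mul_pos (Real.rpow_pos_of_pos hg _) (Real.rpow_pos_of_pos hR _)

theorem kg_sq {g R : ℝ} (hg : 0 < g) (hR : 0 < R) : kg g R ^ 2 * R = (g * R) ^ (2 / 3 : ℝ) := by
  unfold kg
  rw [mul_pow, ← Real.rpow_natCast (g ^ _), ← Real.rpow_natCast (R ^ _), ← Real.rpow_mul hg.le, ← Real.rpow_mul hR.le,
    Real.mul_rpow hg.le hR.le, mul_assoc]
  congr 1
  · congr 1; norm_num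
  · nth_rewrite 2 [← Real.rpow_one R]
    rw [← Real.rpow_add hR]
    congr 1
    norm_num

theorem kg_div {g R : ℝ} (hg : 0 < g) (hR : 0 < R) : g * R ^ (1 / 2 : ℝ) / kg g R = (g * R) ^ (2 / 3 : ℝ) := by
  rw [div_eq_iff (kg_pos hg hR).ne', Real.mul_rpow hg.le hR.le]
  unfold kg
  have h1 : g = g ^ (2 / 3 : ℝ) * g ^ (1 / 3 : ℝ) := by
    rw [← Real.rpow_add hg]
    norm_num
  have h2 : R ^ (1 / 2 : ℝ) = R ^ (2 / 3 : ℝ) * R ^ (-1 / 6 : ℝ) := by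
    rw [← Real.rpow_add hR]
    norm_num
  rw [h2]
  nth_rewrite 1 [h1]
  ring

theorem kg_le {g R : ℝ} (hg : 0 < g) (hR : 0 < R) (h : g ≤ R ^ (12 / 25 : ℝ)) : kg g R ≤ R ^ (-1 / 150 : ℝ) := by
  unfold kg
  calc g ^ (1 / 3 : ℝ) * R ^ (-1 / 6 : ℝ) ≤ (R ^ (12 / 25 : ℝ)) ^ (1 / 3 : ℝ) * R ^ (-1 / 6 : ℝ) :=
        mul_le_mul_of_nonneg_right (Real.rpow_le_rpow hg.le h (by norm_num)) (Real.rpow_nonneg hR.le _)
    _ = R ^ (-1 / 150 : ℝ) := by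
        rw [← Real.rpow_mul hR.le, ← Real.rpow_add hR]
        norm_num

/-- `min a b ≤ a ^ (1/4) b ^ (3/4)` -/
theorem le_geo {x a b : ℝ} (hx : 0 ≤ x) (ha : x ≤ a) (hb : x ≤ b) : x ≤ a ^ (1 / 4 : ℝ) * b ^ (3 / 4 : ℝ) := by
  have h1 : x = x ^ (1 / 4 : ℝ) * x ^ (3 / 4 : ℝ) := by
    rcases hx.eq_or_lt with h | h
    · rw [← h, Real.zero_rpow (by norm_num), Real.zero_rpow (by norm_num), mul_zero]
    · rw [← Real.rpow_add h]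
      norm_num
  calc x = x ^ (1 / 4 : ℝ) * x ^ (3 / 4 : ℝ) := h1
    _ ≤ _ := mul_le_mul (Real.rpow_le_rpow hx ha (by norm_num)) (Real.rpow_le_rpow hx hb (by norm_num))
      (Real.rpow_nonneg hx _) (Real.rpow_nonneg (hx.trans ha) _)

/-- case (a) : large energy -/
theorem case_a [DecidableEq κ] {A : Finset ι} {bk : ι → κ} {e : ι → ℝ} {R T g α M C1 C3 s : ℝ} (hR : 1 ≤ R) (hT : 0 < T)
    (hg : 1 ≤ g) (hα : 0 < α) (hs : 0 < s) (hC3 : 0 ≤ C3)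
    (H1 : ∀ P ⊆ A, Set.InjOn bk P → ∑ i ∈ P, e i ≤ C1 * (R ^ (1 / 2 : ℝ) / T ^ 2 * M))
    (H3 : ∀ b, ((A.filter fun i => bk i = b).card : ℝ) ≤ C3 * g * T ^ 2)
    {B : Finset ι} (hB : B ⊆ A) (hBe : ∀ i ∈ B, s * (α ^ 2 * kg g R) ≤ e i) :
    α ^ 2 * B.card ≤ C1 * C3 * s⁻¹ * ((g * R) ^ (2 / 3 : ℝ) * M) := by
  have hg0 : 0 < g := by linarith
  have hR0 : 0 < R := by linarith
  have hk := kg_pos hg0 hR0
  obtain ⟨P, h1, h2, h3⟩ := sel_card hB bk H3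
  have h4 : P.card * (s * (α ^ 2 * kg g R)) ≤ C1 * (R ^ (1 / 2 : ℝ) / T ^ 2 * M) := by
    refine le_trans ?_ (H1 P (h1.trans hB) h2)
    have := Finset.card_nsmul_le_sum P e (s * (α ^ 2 * kg g R)) fun i hi => hBe i (h1 hi)
    rwa [nsmul_eq_mul] at this
  have h5 : α ^ 2 * (B.card : ℝ) ≤ α ^ 2 * (C3 * g * T ^ 2 * P.card) :=
    mul_le_mul_of_nonneg_left h3 (by positivity)
  refine h5.trans ?_
  have e1 : α ^ 2 * (C3 * g * T ^ 2 * P.card) = C3 * g * T ^ 2 * s⁻¹ * (kg g R)⁻¹ * (P.card * (s * (α ^ 2 * kg g R))) := by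
    field_simp
  have e2 : C1 * C3 * s⁻¹ * ((g * R) ^ (2 / 3 : ℝ) * M) =
      C3 * g * T ^ 2 * s⁻¹ * (kg g R)⁻¹ * (C1 * (R ^ (1 / 2 : ℝ) / T ^ 2 * M)) := by
    rw [← kg_div hg0 hR0]
    field_simp
  rw [e1, e2]
  refine mul_le_mul_of_nonneg_left h4 ?_
  positivity

/-- case (b) : both energies large -/
theorem case_b [DecidableEq κ] {A : Finset ι} {bk : ι → κ} {e1 e2 : ι → ℝ} {R T g α M C2 C3 s a : ℝ} (hR : 1 ≤ R)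
    (hT : 0 < T) (hg : 1 ≤ g) (hα : 0 < α) (hM : 0 ≤ M) (hs : 0 < s) (hC2 : 0 ≤ C2) (hC3 : 1 ≤ C3) (ha : 0 ≤ a)
    (H2 : ∀ P ⊆ A, Set.InjOn bk P → ∀ Λ : ℝ, 0 < Λ → (∀ i ∈ P, Λ ≤ e1 i ∧ Λ ≤ e2 i) →
      P.card * Λ ≤ C2 * ((P.card * T ^ 2 / R ^ 2) ^ (1 / 4 : ℝ) * (R ^ (1 / 2 : ℝ) / T ^ 2 * M)))
    (H3 : ∀ b, ((A.filter fun i => bk i = b).card : ℝ) ≤ C3 * g * T ^ 2)
    {B : Finset ι} (hB : B ⊆ A) (hBe : ∀ i ∈ B, s * (α ^ 2 * kg g R) ≤ e1 i ∧ s * (α ^ 2 * kg g R) ≤ e2 i)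
    (hBa : (B.card : ℝ) ≤ a * (g * R ^ 2)) :
    α ^ 2 * B.card ≤ C2 * C3 * s⁻¹ * a ^ (1 / 4 : ℝ) * ((g * R) ^ (2 / 3 : ℝ) * M) := by
  have hg0 : 0 < g := by linarith
  have hR0 : 0 < R := by linarith
  have hk := kg_pos hg0 hR0
  have hC30 : 0 < C3 := by linarith
  obtain ⟨P, h1, h2, h3⟩ := sel_card hB bk H3
  set ν : ℝ := P.card * T ^ 2 / R ^ 2 with hν
  have hν0 : 0 ≤ ν := by positivity
  have h4 : P.card * (s * (α ^ 2 * kg g R)) ≤ C2 * (ν ^ (1 / 4 : ℝ) * (R ^ (1 / 2 : ℝ) / T ^ 2 * M)) :=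
    H2 P (h1.trans hB) h2 _ (by positivity) fun i hi => hBe i (h1 hi)
  -- `ν ^ (3/4)` is small
  have h5 : ν ^ (3 / 4 : ℝ) * (R ^ 2 * (s * (α ^ 2 * kg g R))) ≤ C2 * (R ^ (1 / 2 : ℝ) * M) := by
    rcases hν0.eq_or_lt with h | h
    · rw [← h, Real.zero_rpow (by norm_num), zero_mul]
      positivity
    · have e : (P.card : ℝ) = ν * R ^ 2 / T ^ 2 := by
        rw [hν]
        field_simp
      have hq : (0:ℝ) < ν ^ (1 / 4 : ℝ) := Real.rpow_pos_of_pos h _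
      have e3 : ν = ν ^ (3 / 4 : ℝ) * ν ^ (1 / 4 : ℝ) := by
        rw [← Real.rpow_add h, show (3 / 4 + 1 / 4 : ℝ) = 1 by norm_num, Real.rpow_one]
      rw [e] at h4
      refine le_of_mul_le_mul_right ?_ (div_pos hq (pow_pos hT 2))
      calc ν ^ (3 / 4 : ℝ) * (R ^ 2 * (s * (α ^ 2 * kg g R))) * (ν ^ (1 / 4 : ℝ) / T ^ 2)
          = (ν ^ (3 / 4 : ℝ) * ν ^ (1 / 4 : ℝ)) * R ^ 2 / T ^ 2 * (s * (α ^ 2 * kg g R)) := by ring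
        _ = ν * R ^ 2 / T ^ 2 * (s * (α ^ 2 * kg g R)) := by rw [← e3]
        _ ≤ C2 * (ν ^ (1 / 4 : ℝ) * (R ^ (1 / 2 : ℝ) / T ^ 2 * M)) := h4
        _ = _ := by ring
  have hgR : 0 < g * R ^ 2 := by positivity
  have h6 : (B.card : ℝ) / (g * R ^ 2) ≤ a := by rwa [div_le_iff₀ hgR]
  have h7 : (B.card : ℝ) / (g * R ^ 2) ≤ C3 * ν := by
    rw [div_le_iff₀ hgR]
    refine h3.trans (le_of_eq ?_)
    rw [hν]
    field_simp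
  have h8 := le_geo (by positivity) h6 h7
  rw [div_le_iff₀ hgR] at h8
  have h9 : (C3 * ν) ^ (3 / 4 : ℝ) ≤ C3 * ν ^ (3 / 4 : ℝ) := by
    rw [Real.mul_rpow hC30.le hν0]
    refine mul_le_mul_of_nonneg_right ?_ (Real.rpow_nonneg hν0 _)
    calc C3 ^ (3 / 4 : ℝ) ≤ C3 ^ (1 : ℝ) := Real.rpow_le_rpow_of_exponent_le hC3 (by norm_num)
      _ = C3 := Real.rpow_one _
  have ha4 : 0 ≤ a ^ (1 / 4 : ℝ) := Real.rpow_nonneg ha _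
  have h10 : (B.card : ℝ) ≤ a ^ (1 / 4 : ℝ) * (C3 * ν ^ (3 / 4 : ℝ)) * (g * R ^ 2) :=
    h8.trans (mul_le_mul_of_nonneg_right (mul_le_mul_of_nonneg_left h9 ha4) hgR.le)
  have hsk : 0 < s * (α ^ 2 * kg g R) := by positivity
  calc α ^ 2 * (B.card : ℝ) ≤ α ^ 2 * (a ^ (1 / 4 : ℝ) * (C3 * ν ^ (3 / 4 : ℝ)) * (g * R ^ 2)) :=
        mul_le_mul_of_nonneg_left h10 (by positivity)
    _ = (C3 * a ^ (1 / 4 : ℝ) * g * s⁻¹ * (kg g R)⁻¹) * (ν ^ (3 / 4 : ℝ) * (R ^ 2 * (s * (α ^ 2 * kg g R)))) := by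
        field_simp
    _ ≤ (C3 * a ^ (1 / 4 : ℝ) * g * s⁻¹ * (kg g R)⁻¹) * (C2 * (R ^ (1 / 2 : ℝ) * M)) :=
        mul_le_mul_of_nonneg_left h5 (by positivity)
    _ = _ := by
        rw [← kg_div hg0 hR0]
        field_simp

/-- case (c) : energies below the thresholds -/
theorem case_c {A : Finset ι} {e1 e2 : ι → ℝ} {R g α M C4 c4 s1 s2 : ℝ} (hR : 1 ≤ R) (hg : 1 ≤ g) (hα : 0 < α)
    (hs1 : 0 < s1) (hs2 : 0 < s2) (h41 : C4 * R ^ c4 * (s1 * kg g R) ≤ 1) (h42 : C4 * R ^ c4 * (s2 * kg g R) ≤ 1)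
    (H4 : ∀ B ⊆ A, ∀ Y1 Y2 : ℝ, 0 < Y1 → 0 < Y2 → C4 * R ^ c4 * Y1 ≤ α ^ 2 → C4 * R ^ c4 * Y2 ≤ α ^ 2 → (∀ i ∈ B, e1 i ≤ Y1 ∧ e2 i ≤ Y2) →
      α ^ 2 * B.card ≤ C4 * ((Y1 * Y2 / α ^ 4 * R + R ^ (-c4) * (g * R) ^ (2 / 3 : ℝ)) * M))
    {B : Finset ι} (hB : B ⊆ A) (hBe : ∀ i ∈ B, e1 i ≤ s1 * (α ^ 2 * kg g R) ∧ e2 i ≤ s2 * (α ^ 2 * kg g R)) :
    α ^ 2 * B.card ≤ C4 * (s1 * s2 + R ^ (-c4)) * ((g * R) ^ (2 / 3 : ℝ) * M) := by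
  have hg0 : 0 < g := by linarith
  have hR0 : 0 < R := by linarith
  have hk := kg_pos hg0 hR0
  have hα2 : 0 < α ^ 2 := by positivity
  have h := H4 B hB (s1 * (α ^ 2 * kg g R)) (s2 * (α ^ 2 * kg g R)) (by positivity) (by positivity)
    (by nlinarith) (by nlinarith) hBe
  refine h.trans (le_of_eq ?_)
  have e : s1 * (α ^ 2 * kg g R) * (s2 * (α ^ 2 * kg g R)) / α ^ 4 * R = s1 * s2 * (kg g R ^ 2 * R) := by
    field_simp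
  rw [e, kg_sq hg0 hR0]
  ring

/-- real numbers: the factor `η`, `η = min 1 (N / (g R²))`, `N ≥ 1` -/
theorem eta_ge {N R g : ℝ} (hN : 1 ≤ N) (hR : 1 ≤ R) (hg : 1 ≤ g) (hgR : g ≤ R ^ (12 / 25 : ℝ)) :
    R ^ (-5 / 2 : ℝ) ≤ min 1 (N / (g * R ^ 2)) := by
  have hRp : 0 < R := by linarith
  have hgp : 0 < g := by linarith
  refine le_min (Real.rpow_le_one_of_one_le_of_nonpos hR (by norm_num)) ?_
  rw [le_div_iff₀ (by positivity)]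
  refine le_trans ?_ hN
  have h1 : g * R ^ 2 ≤ R ^ (5 / 2 : ℝ) := by
    calc g * R ^ 2 ≤ R ^ (12 / 25 : ℝ) * R ^ (2 : ℝ) := by
          rw [← Real.rpow_natCast R 2]
          push_cast
          exact mul_le_mul_of_nonneg_right hgR (by positivity)
      _ = R ^ (62 / 25 : ℝ) := by
          rw [← Real.rpow_add hRp]
          norm_num
      _ ≤ R ^ (5 / 2 : ℝ) := Real.rpow_le_rpow_of_exponent_le hR (by norm_num)
  calc R ^ (-5 / 2 : ℝ) * (g * R ^ 2) ≤ R ^ (-5 / 2 : ℝ) * R ^ (5 / 2 : ℝ) :=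
        mul_le_mul_of_nonneg_left h1 (by positivity)
    _ = 1 := by
        rw [← Real.rpow_add hRp]
        norm_num

theorem eta_pow {η R c4 : ℝ} (hR : 1 ≤ R) (hc4 : 0 < c4) (h : R ^ (-5 / 2 : ℝ) ≤ η) :
    R ^ (-c4) ≤ η ^ (2 / 5 * c4) := by
  have hRp : 0 < R := by linarith
  calc R ^ (-c4) = (R ^ (-5 / 2 : ℝ)) ^ (2 / 5 * c4) := by
        rw [← Real.rpow_mul hRp.le]
        congr 1
        ring
    _ ≤ η ^ (2 / 5 * c4) := Real.rpow_le_rpow (by positivity) h (by positivity)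

/-- small `R` -/
theorem small_R {R R0 G x : ℝ} (hR : 1 ≤ R) (hRR : R ≤ R0) (hG1 : 1 ≤ G) {c4 : ℝ} (hc4' : c4 ≤ 1 / 1000)
    (hx : R ^ (-c4) ≤ x) : R ≤ R0 ^ (2 : ℝ) * (G * x) := by
  have hRp : 0 < R := by linarith
  have hR0p : 0 < R0 := by linarith
  have hx0 : 0 ≤ x := le_trans (by positivity) hx
  have h1 : R0 ^ (-1 : ℝ) ≤ x := by
    refine le_trans ?_ hx
    calc R0 ^ (-1 : ℝ) ≤ R ^ (-1 : ℝ) := Real.rpow_le_rpow_of_nonpos hRp hRR (by norm_num)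
      _ ≤ R ^ (-c4) := Real.rpow_le_rpow_of_exponent_le hR (by linarith)
  calc R ≤ R0 := hRR
    _ = R0 ^ (2 : ℝ) * R0 ^ (-1 : ℝ) := by
        rw [← Real.rpow_add hR0p]
        norm_num
    _ ≤ R0 ^ (2 : ℝ) * (1 * x) := by
        rw [one_mul]
        exact mul_le_mul_of_nonneg_left h1 (by positivity)
    _ ≤ R0 ^ (2 : ℝ) * (G * x) :=
        mul_le_mul_of_nonneg_left (mul_le_mul_of_nonneg_right hG1 hx0) (by positivity)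

/-- the thresholds are admissible -/
theorem thr {C4 R R0 c4 s k : ℝ} (hC4 : 1 ≤ C4) (hR : 1 ≤ R) (hR0 : R0 = C4 ^ (3000 / 7 : ℝ)) (hRR : R0 ≤ R)
    (hc4' : c4 ≤ 1 / 1000) (hs0 : 0 ≤ s) (hs : s ≤ R ^ (1 / 300 : ℝ)) (hk0 : 0 ≤ k) (hk : k ≤ R ^ (-1 / 150 : ℝ)) :
    C4 * R ^ c4 * (s * k) ≤ 1 := by
  have hRp : 0 < R := by linarith
  have hC40 : 0 ≤ C4 := by linarith
  have h1 : C4 ≤ R ^ (7 / 3000 : ℝ) := by
    calc C4 = R0 ^ (7 / 3000 : ℝ) := by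
          rw [hR0, ← Real.rpow_mul hC40, show (3000 / 7 * (7 / 3000) : ℝ) = 1 by norm_num, Real.rpow_one]
      _ ≤ R ^ (7 / 3000 : ℝ) := by
          refine Real.rpow_le_rpow ?_ hRR (by norm_num)
          rw [hR0]
          positivity
  have h2 : R ^ c4 ≤ R ^ (1 / 1000 : ℝ) := Real.rpow_le_rpow_of_exponent_le hR hc4'
  calc C4 * R ^ c4 * (s * k) ≤ R ^ (7 / 3000 : ℝ) * R ^ (1 / 1000 : ℝ) * (R ^ (1 / 300 : ℝ) * R ^ (-1 / 150 : ℝ)) :=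
        mul_le_mul (mul_le_mul h1 h2 (by positivity) (by positivity)) (mul_le_mul hs hk hk0 (by positivity))
          (mul_nonneg hs0 hk0) (by positivity)
    _ = 1 := by
        rw [← Real.rpow_add hRp, ← Real.rpow_add hRp, ← Real.rpow_add hRp]
        norm_num

theorem sum_five {a x1 x2 x3 x4 x5 x c1 c2 c4 p q r X : ℝ} (ha : 0 ≤ a) (hx : x ≤ x1 + x2 + x3 + x4 + x5)
    (hc1 : 0 ≤ c1) (hc2 : 0 ≤ c2) (hc4 : 0 ≤ c4) (hq : q ≤ p) (hr : 0 ≤ r) (hX : 0 ≤ X)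
    (b1 : a * x1 ≤ c1 * p * X) (b2 : a * x2 ≤ c1 * p * X) (b3 : a * x3 ≤ c2 * q * X)
    (b4 : a * x4 ≤ c4 * (q + r) * X) (b5 : a * x5 ≤ c4 * (q + r) * X) :
    a * x ≤ (2 * c1 + c2 + 2 * c4) * (p + r) * X := by
  have h0 := mul_le_mul_of_nonneg_left hx ha
  have h3 : c2 * q * X ≤ c2 * p * X := mul_le_mul_of_nonneg_right (mul_le_mul_of_nonneg_left hq hc2) hX
  have h4 : c4 * (q + r) * X ≤ c4 * (p + r) * X :=
    mul_le_mul_of_nonneg_right (mul_le_mul_of_nonneg_left (by linarith) hc4) hX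
  have k1 : 0 ≤ c1 * r * X := mul_nonneg (mul_nonneg hc1 hr) hX
  have k2 : 0 ≤ c2 * r * X := mul_nonneg (mul_nonneg hc2 hr) hX
  calc a * x ≤ a * (x1 + x2 + x3 + x4 + x5) := h0
    _ = a * x1 + a * x2 + a * x3 + a * x4 + a * x5 := by ring
    _ ≤ c1 * p * X + c1 * p * X + c2 * p * X + c4 * (p + r) * X + c4 * (p + r) * X := by linarith
    _ ≤ c1 * p * X + c1 * p * X + c2 * p * X + c4 * (p + r) * X + c4 * (p + r) * X + (2 * (c1 * r * X) + c2 * r * X) := by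
        linarith
    _ = _ := by ring

/-- the assembly for large `R` -/
theorem slab_large {ι κ : Type*} [DecidableEq κ] {C1 C2 C3 C4 c4 R0 : ℝ} (hC1 : 1 ≤ C1) (hC2 : 1 ≤ C2) (hC3 : 1 ≤ C3)
    (hC4 : 1 ≤ C4) (hc4' : c4 ≤ 1 / 1000) (hR0 : R0 = C4 ^ (3000 / 7 : ℝ)) {A : Finset ι} {bk : ι → κ}
    {e1 e2 : ι → ℝ} {R T g α M η : ℝ} (hR : 1 ≤ R) (hRR : R0 ≤ R) (hT : 0 < T) (hg : 1 ≤ g) (hgR : g ≤ R ^ (12 / 25 : ℝ))
    (hα : 0 < α) (hM : 0 ≤ M) (hη : η = min 1 ((A.card : ℝ) / (g * R ^ 2))) (hηp : 0 < η)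
    (H1 : ∀ P ⊆ A, Set.InjOn bk P → ∑ i ∈ P, e1 i ≤ C1 * (R ^ (1 / 2 : ℝ) / T ^ 2 * M))
    (H1' : ∀ P ⊆ A, Set.InjOn bk P → ∑ i ∈ P, e2 i ≤ C1 * (R ^ (1 / 2 : ℝ) / T ^ 2 * M))
    (H2 : ∀ P ⊆ A, Set.InjOn bk P → ∀ Λ : ℝ, 0 < Λ → (∀ i ∈ P, Λ ≤ e1 i ∧ Λ ≤ e2 i) →
      P.card * Λ ≤ C2 * ((P.card * T ^ 2 / R ^ 2) ^ (1 / 4 : ℝ) * (R ^ (1 / 2 : ℝ) / T ^ 2 * M)))
    (H3 : ∀ b, ((A.filter fun i => bk i = b).card : ℝ) ≤ C3 * g * T ^ 2)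
    (H4 : ∀ B ⊆ A, ∀ Y1 Y2 : ℝ, 0 < Y1 → 0 < Y2 → C4 * R ^ c4 * Y1 ≤ α ^ 2 → C4 * R ^ c4 * Y2 ≤ α ^ 2 →
      (∀ i ∈ B, e1 i ≤ Y1 ∧ e2 i ≤ Y2) →
      α ^ 2 * B.card ≤ C4 * ((Y1 * Y2 / α ^ 4 * R + R ^ (-c4) * (g * R) ^ (2 / 3 : ℝ)) * M)) :
    α ^ 2 * A.card ≤ (2 * (C1 * C3) + C2 * C3 + 2 * C4) *
      ((max η (R ^ (-1 / 15 : ℝ))) ^ (1 / 20 : ℝ) + R ^ (-c4)) * ((g * R) ^ (2 / 3 : ℝ) * M) := by
  classical
  have hRp : 0 < R := by linarith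
  have hgp : 0 < g := by linarith
  have hη1 : η ≤ 1 := by rw [hη]; exact min_le_left _ _
  obtain ⟨η', hη'⟩ : ∃ z : ℝ, z = max η (R ^ (-1 / 15 : ℝ)) := ⟨_, rfl⟩
  rw [← hη']
  have hη'1 : η' ≤ 1 := by
    rw [hη']; exact max_le hη1 (Real.rpow_le_one_of_one_le_of_nonpos hR (by norm_num))
  have hηη' : η ≤ η' := by rw [hη']; exact le_max_left _ _
  have hη'p : 0 < η' := lt_of_lt_of_le hηp hηη'
  have hη'R : R ^ (-1 / 15 : ℝ) ≤ η' := by rw [hη']; exact le_max_right _ _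
  have hkp := kg_pos hgp hRp
  have hkl := kg_le hgp hRp hgR
  obtain ⟨s, hs⟩ : ∃ z : ℝ, z = η' ^ (-1 / 20 : ℝ) := ⟨_, rfl⟩
  obtain ⟨u, hu⟩ : ∃ z : ℝ, z = η' ^ (3 / 20 : ℝ) := ⟨_, rfl⟩
  have hsp : 0 < s := by rw [hs]; exact Real.rpow_pos_of_pos hη'p _
  have hup : 0 < u := by rw [hu]; exact Real.rpow_pos_of_pos hη'p _
  have hu1 : u ≤ 1 := by rw [hu]; exact Real.rpow_le_one hη'p.le hη'1 (by norm_num)
  have hs1 : 1 ≤ s := by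
    rw [hs]
    exact Real.one_le_rpow_of_pos_of_le_one_of_nonpos hη'p hη'1 (by norm_num)
  have hsR : s ≤ R ^ (1 / 300 : ℝ) := by
    calc s ≤ (R ^ (-1 / 15 : ℝ)) ^ (-1 / 20 : ℝ) := by
          rw [hs]; exact Real.rpow_le_rpow_of_nonpos (by positivity) hη'R (by norm_num)
      _ = R ^ (1 / 300 : ℝ) := by
          rw [← Real.rpow_mul hRp.le]
          norm_num
  have hthr : C4 * R ^ c4 * (s * kg g R) ≤ 1 := thr hC4 hR hR0 hRR hc4' hsp.le hsR hkp.le hkl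
  have hthr' : C4 * R ^ c4 * (u * kg g R) ≤ 1 :=
    thr hC4 hR hR0 hRR hc4' hup.le ((hu1.trans hs1).trans hsR) hkp.le hkl
  -- the classes
  obtain ⟨A1, hA1d⟩ : ∃ B, B = A.filter fun i => s * (α ^ 2 * kg g R) ≤ e1 i := ⟨_, rfl⟩
  obtain ⟨A2, hA2d⟩ : ∃ B, B = A.filter fun i => s * (α ^ 2 * kg g R) ≤ e2 i := ⟨_, rfl⟩
  obtain ⟨A3, hA3d⟩ : ∃ B, B = A.filter fun i => (u * (α ^ 2 * kg g R) ≤ e1 i ∧ u * (α ^ 2 * kg g R) ≤ e2 i) ∧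
    ¬ (s * (α ^ 2 * kg g R) ≤ e1 i) := ⟨_, rfl⟩
  obtain ⟨A4, hA4d⟩ : ∃ B, B = A.filter fun i => e1 i ≤ u * (α ^ 2 * kg g R) ∧ e2 i ≤ s * (α ^ 2 * kg g R) := ⟨_, rfl⟩
  obtain ⟨A5, hA5d⟩ : ∃ B, B = A.filter fun i => e1 i ≤ s * (α ^ 2 * kg g R) ∧ e2 i ≤ u * (α ^ 2 * kg g R) := ⟨_, rfl⟩
  have hcover : A ⊆ A1 ∪ A2 ∪ A3 ∪ A4 ∪ A5 := by
    intro i hi
    simp only [hA1d, hA2d, hA3d, hA4d, hA5d, Finset.mem_union, Finset.mem_filter, hi, true_and]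
    by_cases h1 : s * (α ^ 2 * kg g R) ≤ e1 i
    · exact Or.inl (Or.inl (Or.inl (Or.inl h1)))
    by_cases h2 : s * (α ^ 2 * kg g R) ≤ e2 i
    · exact Or.inl (Or.inl (Or.inl (Or.inr h2)))
    by_cases h3 : u * (α ^ 2 * kg g R) ≤ e1 i
    · by_cases h4 : u * (α ^ 2 * kg g R) ≤ e2 i
      · exact Or.inl (Or.inl (Or.inr ⟨⟨h3, h4⟩, h1⟩))
      · exact Or.inr ⟨(not_le.1 h1).le, (not_le.1 h4).le⟩
    · exact Or.inl (Or.inr ⟨(not_le.1 h3).le, (not_le.1 h2).le⟩)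
  have hcard : (A.card : ℝ) ≤ A1.card + A2.card + A3.card + A4.card + A5.card := by
    have h1 := Finset.card_le_card hcover
    have h2 := Finset.card_union_le (A1 ∪ A2 ∪ A3 ∪ A4) A5
    have h3 := Finset.card_union_le (A1 ∪ A2 ∪ A3) A4
    have h4 := Finset.card_union_le (A1 ∪ A2) A3
    have h5 := Finset.card_union_le A1 A2
    have : A.card ≤ A1.card + A2.card + A3.card + A4.card + A5.card := by omega
    exact_mod_cast this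
  have sub1 : A1 ⊆ A := by rw [hA1d]; exact Finset.filter_subset _ _
  have sub2 : A2 ⊆ A := by rw [hA2d]; exact Finset.filter_subset _ _
  have sub3 : A3 ⊆ A := by rw [hA3d]; exact Finset.filter_subset _ _
  have sub4 : A4 ⊆ A := by rw [hA4d]; exact Finset.filter_subset _ _
  have sub5 : A5 ⊆ A := by rw [hA5d]; exact Finset.filter_subset _ _
  have b1 := case_a hR hT hg hα hsp (by linarith) H1 H3 sub1 fun i hi => by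
    rw [hA1d] at hi; exact (Finset.mem_filter.1 hi).2
  have b2 := case_a hR hT hg hα hsp (by linarith) H1' H3 sub2 fun i hi => by
    rw [hA2d] at hi; exact (Finset.mem_filter.1 hi).2
  have b4 := case_c hR hg hα hup hsp hthr' hthr H4 sub4 fun i hi => by
    rw [hA4d] at hi; exact (Finset.mem_filter.1 hi).2
  have b5 := case_c hR hg hα hsp hup hthr hthr' H4 sub5 fun i hi => by
    rw [hA5d] at hi; exact (Finset.mem_filter.1 hi).2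
  obtain ⟨G, hG⟩ : ∃ z : ℝ, z = (g * R) ^ (2 / 3 : ℝ) := ⟨_, rfl⟩
  have hG0 : 0 ≤ G := by rw [hG]; positivity
  rw [← hG] at b1 b2 b4 b5 ⊢
  -- powers of `η'`
  have hsinv : s⁻¹ = η' ^ (1 / 20 : ℝ) := by
    rw [hs, ← Real.rpow_neg hη'p.le]
    norm_num
  have hus' : u * s = η' ^ (1 / 10 : ℝ) := by
    rw [hu, hs, ← Real.rpow_add hη'p]
    norm_num
  have hsu' : s * u = η' ^ (1 / 10 : ℝ) := by rw [mul_comm]; exact hus'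
  have hpow : η' ^ (1 / 10 : ℝ) ≤ η' ^ (1 / 20 : ℝ) :=
    Real.rpow_le_rpow_of_exponent_ge hη'p hη'1 (by norm_num)
  have b3 : α ^ 2 * A3.card ≤ C2 * C3 * η' ^ (1 / 10 : ℝ) * (G * M) := by
    rcases le_or_gt ((A.card : ℝ) / (g * R ^ 2)) 1 with h | h
    · have hBa : (A3.card : ℝ) ≤ η' * (g * R ^ 2) := by
        have h1 : (A.card : ℝ) / (g * R ^ 2) ≤ η' := by
          have : η = (A.card : ℝ) / (g * R ^ 2) := by rw [hη]; exact min_eq_right h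
          rw [← this]
          exact hηη'
        rw [div_le_iff₀ (by positivity)] at h1
        exact le_trans (by exact_mod_cast Finset.card_le_card sub3) h1
      have hb := case_b hR hT hg hα hM hup (by linarith) hC3 hη'p.le H2 H3 sub3
        (fun i hi => by rw [hA3d] at hi; exact (Finset.mem_filter.1 hi).2.1) hBa
      rw [← hG] at hb
      refine hb.trans (le_of_eq ?_)
      have e : u⁻¹ * η' ^ (1 / 4 : ℝ) = η' ^ (1 / 10 : ℝ) := by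
        rw [hu, ← Real.rpow_neg hη'p.le, ← Real.rpow_add hη'p]
        norm_num
      rw [mul_assoc (C2 * C3), e]
    · -- `η' = 1`, the class is empty
      have h1 : η = 1 := by rw [hη]; exact min_eq_left h.le
      have h2 : η' = 1 := le_antisymm hη'1 (by rw [← h1]; exact hηη')
      have h3 : A3 = ∅ := by
        rw [hA3d, Finset.filter_eq_empty_iff]
        intro i _ hi
        apply hi.2
        have e1' : s = 1 := by rw [hs, h2, Real.one_rpow]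
        have e2' : u = 1 := by rw [hu, h2, Real.one_rpow]
        rw [e1']
        rw [e2'] at hi
        exact hi.1.1
      rw [h3, Finset.card_empty, Nat.cast_zero, mul_zero]
      positivity
  rw [hsinv] at b1 b2
  rw [hus'] at b4
  rw [hsu'] at b5
  exact sum_five (by positivity) hcard (by positivity) (by positivity) (by linarith) hpow (by positivity)
    (mul_nonneg hG0 hM) b1 b2 b3 b4 b5

/-- **final assembly** -/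
theorem slab_num {C1 C2 C3 C4 C5 c4 : ℝ} (hC1 : 1 ≤ C1) (hC2 : 1 ≤ C2) (hC3 : 1 ≤ C3) (hC4 : 1 ≤ C4) (hC5 : 1 ≤ C5)
    (hc4 : 0 < c4) (hc4' : c4 ≤ 1 / 1000) : ∃ C : ℝ, 0 ≤ C ∧
    ∀ {ι κ : Type} [DecidableEq κ] (A : Finset ι) (bk : ι → κ) (e1 e2 : ι → ℝ) (R T g α M : ℝ), 1 ≤ R → 0 < T → 1 ≤ g →
    g ≤ R ^ (12 / 25 : ℝ) → 0 < α → 0 ≤ M →
    (∀ P ⊆ A, Set.InjOn bk P → ∑ i ∈ P, e1 i ≤ C1 * (R ^ (1 / 2 : ℝ) / T ^ 2 * M)) →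
    (∀ P ⊆ A, Set.InjOn bk P → ∑ i ∈ P, e2 i ≤ C1 * (R ^ (1 / 2 : ℝ) / T ^ 2 * M)) →
    (∀ P ⊆ A, Set.InjOn bk P → ∀ Λ : ℝ, 0 < Λ → (∀ i ∈ P, Λ ≤ e1 i ∧ Λ ≤ e2 i) →
      P.card * Λ ≤ C2 * ((P.card * T ^ 2 / R ^ 2) ^ (1 / 4 : ℝ) * (R ^ (1 / 2 : ℝ) / T ^ 2 * M))) →
    (∀ b, ((A.filter fun i => bk i = b).card : ℝ) ≤ C3 * g * T ^ 2) →
    (∀ B ⊆ A, ∀ Y1 Y2 : ℝ, 0 < Y1 → 0 < Y2 → C4 * R ^ c4 * Y1 ≤ α ^ 2 → C4 * R ^ c4 * Y2 ≤ α ^ 2 →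
      (∀ i ∈ B, e1 i ≤ Y1 ∧ e2 i ≤ Y2) →
      α ^ 2 * B.card ≤ C4 * ((Y1 * Y2 / α ^ 4 * R + R ^ (-c4) * (g * R) ^ (2 / 3 : ℝ)) * M)) →
    α ^ 2 * A.card ≤ C5 * R * M →
    α ^ 2 * A.card ≤ C * ((g * R) ^ (2 / 3 : ℝ) * (min 1 ((A.card : ℝ) / (g * R ^ 2))) ^ (2 / 5 * c4) * M) := by
  obtain ⟨R0, hR0⟩ : ∃ z : ℝ, z = C4 ^ (3000 / 7 : ℝ) := ⟨_, rfl⟩
  have hR0p : 0 ≤ R0 := by rw [hR0]; positivity
  obtain ⟨Cm, hCm⟩ : ∃ z : ℝ, z = 2 * (C1 * C3) + C2 * C3 + 2 * C4 := ⟨_, rfl⟩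
  have hCm0 : 0 ≤ Cm := by rw [hCm]; positivity
  refine ⟨3 * Cm + C5 * R0 ^ (2 : ℝ), by positivity, ?_⟩
  intro ι κ _ A bk e1 e2 R T g α M hR hT hg hgR hα hM H1 H1' H2 H3 H4 H5
  have hRp : 0 < R := by linarith
  have hgp : 0 < g := by linarith
  obtain ⟨η, hη⟩ : ∃ z : ℝ, z = min 1 ((A.card : ℝ) / (g * R ^ 2)) := ⟨_, rfl⟩
  rw [← hη]
  rcases Nat.eq_zero_or_pos A.card with hA | hA
  · rw [hA]
    simp only [Nat.cast_zero, mul_zero]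
    have hη0 : 0 ≤ η := by rw [hη]; exact le_min zero_le_one (by positivity)
    positivity
  have hA1 : (1:ℝ) ≤ A.card := by exact_mod_cast hA
  have hη1 : η ≤ 1 := by rw [hη]; exact min_le_left _ _
  have hηR : R ^ (-5 / 2 : ℝ) ≤ η := by rw [hη]; exact eta_ge hA1 hR hg hgR
  have hηp : 0 < η := lt_of_lt_of_le (by positivity) hηR
  have hηδ : R ^ (-c4) ≤ η ^ (2 / 5 * c4) := eta_pow hR hc4 hηR
  have hηδ0 : 0 ≤ η ^ (2 / 5 * c4) := by positivity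
  rcases lt_or_ge R R0 with hRR | hRR
  · -- small `R`
    have hG1 : 1 ≤ (g * R) ^ (2 / 3 : ℝ) := Real.one_le_rpow (by nlinarith) (by norm_num)
    have h2 := small_R hR hRR.le hG1 hc4' hηδ
    calc α ^ 2 * (A.card : ℝ) ≤ C5 * R * M := H5
      _ ≤ C5 * (R0 ^ (2 : ℝ) * ((g * R) ^ (2 / 3 : ℝ) * η ^ (2 / 5 * c4))) * M :=
          mul_le_mul_of_nonneg_right (mul_le_mul_of_nonneg_left h2 (by linarith)) hM
      _ = C5 * R0 ^ (2 : ℝ) * ((g * R) ^ (2 / 3 : ℝ) * η ^ (2 / 5 * c4) * M) := by ring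
      _ ≤ (3 * Cm + C5 * R0 ^ (2 : ℝ)) * ((g * R) ^ (2 / 3 : ℝ) * η ^ (2 / 5 * c4) * M) := by
          refine mul_le_mul_of_nonneg_right ?_ (by positivity)
          linarith
  have htot := slab_large hC1 hC2 hC3 hC4 hc4' hR0 hR hRR hT hg hgR hα hM hη hηp H1 H1' H2 H3 H4
  rw [← hCm] at htot
  have hfin : (max η (R ^ (-1 / 15 : ℝ))) ^ (1 / 20 : ℝ) + R ^ (-c4) ≤ 3 * η ^ (2 / 5 * c4) := by
    have h1 : (max η (R ^ (-1 / 15 : ℝ))) ^ (1 / 20 : ℝ) ≤ η ^ (1 / 20 : ℝ) + R ^ (-c4) := by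
      rcases le_total η (R ^ (-1 / 15 : ℝ)) with h | h
      · rw [max_eq_right h]
        have : (R ^ (-1 / 15 : ℝ)) ^ (1 / 20 : ℝ) ≤ R ^ (-c4) := by
          rw [← Real.rpow_mul hRp.le]
          exact Real.rpow_le_rpow_of_exponent_le hR (by linarith)
        have h0 : 0 ≤ η ^ (1 / 20 : ℝ) := by positivity
        linarith
      · rw [max_eq_left h]
        have h0 : 0 ≤ R ^ (-c4) := by positivity
        linarith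
    have h2 : η ^ (1 / 20 : ℝ) ≤ η ^ (2 / 5 * c4) := Real.rpow_le_rpow_of_exponent_ge hηp hη1 (by linarith)
    linarith
  have hGM : 0 ≤ (g * R) ^ (2 / 3 : ℝ) * M := by positivity
  calc α ^ 2 * (A.card : ℝ) ≤ _ := htot
    _ ≤ Cm * (3 * η ^ (2 / 5 * c4)) * ((g * R) ^ (2 / 3 : ℝ) * M) :=
        mul_le_mul_of_nonneg_right (mul_le_mul_of_nonneg_left hfin hCm0) hGM
    _ = 3 * Cm * ((g * R) ^ (2 / 3 : ℝ) * η ^ (2 / 5 * c4) * M) := by ring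
    _ ≤ (3 * Cm + C5 * R0 ^ (2 : ℝ)) * ((g * R) ^ (2 / 3 : ℝ) * η ^ (2 / 5 * c4) * M) := by
        refine mul_le_mul_of_nonneg_right ?_ (by positivity)
        have : 0 ≤ C5 * R0 ^ (2 : ℝ) := by positivity
        linarith

/-- 523's form: `δ` before the constants -/
theorem slab_num' (c4 : ℝ) (hc4 : 0 < c4) (hc4' : c4 ≤ 1 / 1000) : ∃ δ : ℝ, 0 < δ ∧
    ∀ C1 C2 C3 C4 C5 : ℝ, 1 ≤ C1 → 1 ≤ C2 → 1 ≤ C3 → 1 ≤ C4 → 1 ≤ C5 → ∃ C : ℝ, 0 ≤ C ∧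
    ∀ {ι κ : Type} [DecidableEq κ] (A : Finset ι) (bk : ι → κ) (e1 e2 : ι → ℝ) (R T g α M : ℝ), 1 ≤ R → 0 < T → 1 ≤ g →
    g ≤ R ^ (12 / 25 : ℝ) → 0 < α → 0 ≤ M →
    (∀ P ⊆ A, Set.InjOn bk P → ∑ i ∈ P, e1 i ≤ C1 * (R ^ (1 / 2 : ℝ) / T ^ 2 * M)) →
    (∀ P ⊆ A, Set.InjOn bk P → ∑ i ∈ P, e2 i ≤ C1 * (R ^ (1 / 2 : ℝ) / T ^ 2 * M)) →
    (∀ P ⊆ A, Set.InjOn bk P → ∀ Λ : ℝ, 0 < Λ → (∀ i ∈ P, Λ ≤ e1 i ∧ Λ ≤ e2 i) →
      P.card * Λ ≤ C2 * ((P.card * T ^ 2 / R ^ 2) ^ (1 / 4 : ℝ) * (R ^ (1 / 2 : ℝ) / T ^ 2 * M))) →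
    (∀ b, ((A.filter fun i => bk i = b).card : ℝ) ≤ C3 * g * T ^ 2) →
    (∀ B ⊆ A, ∀ Y1 Y2 : ℝ, 0 < Y1 → 0 < Y2 → C4 * R ^ c4 * Y1 ≤ α ^ 2 → C4 * R ^ c4 * Y2 ≤ α ^ 2 →
      (∀ i ∈ B, e1 i ≤ Y1 ∧ e2 i ≤ Y2) →
      α ^ 2 * B.card ≤ C4 * (Y1 * Y2 / α ^ 4 * R + R ^ (-c4) * (g * R) ^ (2 / 3 : ℝ)) * M) →
    α ^ 2 * A.card ≤ C5 * R * M →
    α ^ 2 * A.card ≤ C * (g * R) ^ (2 / 3 : ℝ) * (min 1 ((A.card : ℝ) / (g * R ^ 2))) ^ δ * M := by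
  refine ⟨2 / 5 * c4, by positivity, ?_⟩
  intro C1 C2 C3 C4 C5 hC1 hC2 hC3 hC4 hC5
  obtain ⟨C, hC, h⟩ := slab_num hC1 hC2 hC3 hC4 hC5 hc4 hc4'
  refine ⟨C, hC, ?_⟩
  intro ι κ _ A bk e1 e2 R T g α M hR hT hg hgR hα hM H1 H1' H2 H3 H4 H5
  have := h A bk e1 e2 R T g α M hR hT hg hgR hα hM H1 H1' H2 H3
    (fun B hB Y1 Y2 h1 h2 h3 h4 h5 => (H4 B hB Y1 Y2 h1 h2 h3 h4 h5).trans (le_of_eq (by ring))) H5
  refine this.trans (le_of_eq (by ring))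

end Vale.Agent.P076.H429
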