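import Vale.Agent.P076.NS.Geo
import Vale.Agent.P076.H803.Reg
import Vale.Agent.P122.E.Res

/-! # P076 / H429 : spreadness of the directions passes to dense laws (helper429) -/

set_option autoImplicit false

open Filter Topology Finset Vale.Agent.P127 Vale.Agent.P127.Stk Vale.Agent.P127.U Vale.Agent.P127.U.Sys
  Vale.Agent.P122.C2 Vale.Agent.P122.E Vale.Agent.P122.H518 Vale.Agent.P076.NS Vale.Agent.P076.H803

namespace Vale.Agent.P076.H429

variable {K : ℕ}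

open Classical in
/-- the field `TG0.spr` -/
def Sprd (F : Flg K) (c1 : ℝ) : Prop :=
  ∀ ε : ℝ, 0 < ε → ∀ᶠ i in (uf : Filter ℕ), ∀ ω0, 0 < (F.S.P i).w ω0 → ∀ θ r : ℝ,
    (F.S.P i).ex (fun ω => if F.x i ω = F.x i ω0 ∧ |fn θ (F.s i 1 (F.Y 1 i ω)) - r| ≤ F.C / 2 ^ F.n i then 1 else 0) ≤
      (2:ℝ) ^ ((ε - c1 / K) * F.S.L i) * (F.S.P i).pr (F.x i) (F.x i ω0)

open Classical in
/-- counting form: `H0` is the exponent of `x` -/
def SprH (F : Flg K) (c1 H0 : ℝ) : Prop :=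
  ∀ ε : ℝ, 0 < ε → ∀ᶠ i in (uf : Filter ℕ), ∀ ω0, 0 < (F.S.P i).w ω0 → ∀ θ r : ℝ,
    (F.S.P i).ex (fun ω => if F.x i ω = F.x i ω0 ∧ |fn θ (F.s i 1 (F.Y 1 i ω)) - r| ≤ F.C / 2 ^ F.n i then 1 else 0) ≤
      (2:ℝ) ^ ((ε - c1 / K - H0) * F.S.L i)

theorem SprH.res {F : Flg K} {c1 H0 : ℝ} (hs : SprH F c1 H0) {S' : Sys} (d : Dns S' F.S)
    (h : ∀ i ω, 0 < (S'.P i).w ω → 0 < (F.S.P i).w (d.π i ω)) : SprH (F.res d h) c1 H0 := by
  classical
  intro ε hε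
  filter_upwards [hs (ε / 2) (by positivity), d.dom (ε / 2) (by positivity)] with i h1 h2 ω0 hω0 θ r
  have h3 := ex_comp_le (Q := S'.P i) (P := F.S.P i) (π := d.π i) h2
    (f := fun ω => if F.x i ω = F.x i (d.π i ω0) ∧ |fn θ (F.s i 1 (F.Y 1 i ω)) - r| ≤ F.C / 2 ^ F.n i then 1 else 0)
    fun ω => by split_ifs <;> norm_num
  have h4 := h1 (d.π i ω0) (h i ω0 hω0) θ r
  have h5 : (2 : ℝ) ^ ((ε - c1 / K - H0) * F.S.L i) =
      (2 : ℝ) ^ (ε / 2 * F.S.L i) * (2 : ℝ) ^ ((ε / 2 - c1 / K - H0) * F.S.L i) := by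
    rw [← Real.rpow_add (by norm_num)]
    congr 1
    ring
  have h6 : ((F.res d h).S.L i : ℝ) = F.S.L i := by
    show ((S'.L i : ℕ) : ℝ) = _
    rw [d.L_eq]
  rw [h6, h5]
  exact h3.trans (mul_le_mul_of_nonneg_left h4 (by positivity))

theorem SprH.of_sprd {F : Flg K} {c1 H0 : ℝ} (hs : Sprd F c1) (hU : Unf F.S F.x H0) : SprH F c1 H0 := by
  classical
  intro ε hε
  filter_upwards [hs (ε / 2) (by positivity), hU (ε / 2) (by positivity)] with i h1 h2 ω0 hω0 θ r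
  refine (h1 ω0 hω0 θ r).trans ?_
  have h5 : (2 : ℝ) ^ ((ε - c1 / K - H0) * F.S.L i) =
      (2 : ℝ) ^ ((ε / 2 - c1 / K) * F.S.L i) * (2 : ℝ) ^ ((-H0 + ε / 2) * F.S.L i) := by
    rw [← Real.rpow_add (by norm_num)]
    congr 1
    ring
  rw [h5]
  exact mul_le_mul_of_nonneg_left (h2 ω0) (by positivity)

theorem SprH.sprd {F : Flg K} {c1 H0 : ℝ} (hs : SprH F c1 H0) (hL : Low F.S F.x H0) : Sprd F c1 := by
  classical
  intro ε hε
  filter_upwards [hs (ε / 2) (by positivity), hL (ε / 2) (by positivity)] with i h1 h2 ω0 hω0 θ r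
  refine (h1 ω0 hω0 θ r).trans ?_
  have h5 : (2 : ℝ) ^ ((ε / 2 - c1 / K - H0) * F.S.L i) =
      (2 : ℝ) ^ ((ε - c1 / K) * F.S.L i) * (2 : ℝ) ^ ((-H0 - ε / 2) * F.S.L i) := by
    rw [← Real.rpow_add (by norm_num)]
    congr 1
    ring
  rw [h5]
  exact mul_le_mul_of_nonneg_left (h2 ω0 hω0) (by positivity)

/-- **spreadness passes to dense laws** for which the starting cell has no small atoms -/
theorem sprd_res {F : Flg K} {c1 H0 : ℝ} (hs : Sprd F c1) (hU : Unf F.S F.x H0) {S' : Sys} (d : Dns S' F.S)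
    (h : ∀ i ω, 0 < (S'.P i).w ω → 0 < (F.S.P i).w (d.π i ω)) (hL : Low (F.res d h).S (F.res d h).x H0) :
    Sprd (F.res d h) c1 :=
  ((SprH.of_sprd hs hU).res d h).sprd hL

theorem sprd_of {F : Flg K} {c1 : ℝ} (hG : TG0 F c1) : Sprd F c1 := hG.spr

/-- `TG0` from the counts of a regular system and the spreadness -/
theorem tg0_of {F : Flg K} {c1 : ℝ} {H J th : ℕ → ℝ} (hC : Cts F.S K F.N F.Y F.T F.sg H J th) (hs : Sprd F c1) :
    TG0 F c1 where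
  t0 := fun _ hc => tc_nonneg F hc
  t1 := fun _ hc => tc_le hC hc
  I2 := fun _ _ hab hb => i2 hC hab hb
  I2' := fun _ _ _ h1 h2 _ h4 hb => i2' F h1 h2 h4 hb
  spr := hs

end Vale.Agent.P076.H429
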